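import Vale.Agent.P269.Prop.Bd
import Vale.Agent.P269.Ch.Sp

/-!
# Properness: bounded transporters, finite stabilisers
-/

set_option linter.unusedSectionVars false

namespace Vale.Agent.P269.Holo

open Set Function Topology Filter

variable {A W : Type} [NormedRing A] [NormedAlgebra ℂ A] [CompleteSpace A] [FiniteDimensional ℂ A]
  [NormedAddCommGroup W] [NormedSpace ℂ W] [FiniteDimensional ℂ W] {act : A → W → W}
  {S T Z O : Set W} {x x' y : W} {D : Submodule ℂ W}

theorem Bd.mono (h : Bd act T x x') (hS : S ⊆ T) : Bd act S x x' :=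
  h.imp fun _ hC => hC.mono fun _ hq h1 => hq (hS h1)

theorem Prp.mono (h : Prp act T) (hS : S ⊆ T) : Prp act S :=
  fun x hx x' hx' => (h x (hS hx) x' (hS hx')).mono hS

theorem Bd.eventually (h : Bd act T x x') : ∀ᶠ q in 𝓝 (x, x'), Bd act T q.1 q.2 := by
  obtain ⟨C, hC⟩ := h
  exact hC.eventually_nhds.mono fun q hq => ⟨C, hq⟩

/-- criterion with ultrafilters on the natural numbers -/
theorem bd_of_ultra (h : ∀ (U : Ultrafilter ℕ) (y : ℕ → W) (s : ℕ → Aˣ), (∀ n, y n ∈ T) →
    Tendsto y U (𝓝 x) → Tendsto (fun n => act (s n) (y n)) U (𝓝 x') →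
      ∃ C : ℝ, ∀ᶠ n in U, ‖(s n : A)‖ ≤ C) : Bd act T x x' := by
  by_contra hn
  obtain ⟨V, hV⟩ := (𝓝 (x, x')).exists_antitone_basis
  have h1 : ∀ n : ℕ, ∃ p ∈ V n, p.1 ∈ T ∧ ∃ s : Aˣ, act s p.1 = p.2 ∧ (n : ℝ) < ‖(s : A)‖ :=
    fun n => by_contra fun h2 => hn ⟨n, mem_of_superset (hV.1.mem_of_mem trivial)
      fun p hp h3 s e => not_lt.1 fun h4 => h2 ⟨p, hp, h3, s, e, h4⟩⟩
  choose p hp hT s h2 h3 using h1
  have h4 := (hV.tendsto hp).mono_left Nat.hyperfilter_le_atTop
  obtain ⟨C, hC⟩ := h (hyperfilter ℕ) (fun n => (p n).1) s hT (continuousAt_fst.tendsto.comp h4)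
    ((continuousAt_snd.tendsto.comp h4).congr fun n => (h2 n).symm)
  obtain ⟨n, h5, h6⟩ := (hC.and ((tendsto_natCast_atTop_atTop.eventually_ge_atTop C).filter_mono
    Nat.hyperfilter_le_atTop)).exists
  exact (h5.trans h6).not_gt (h3 n)

theorem Prp.properSMul [IsAct act S] (h : Prp act S) : ProperSMul Aˣ (Sp act S) :=
  properSMul_units fun x y => (h _ x.val_mem _ y.val_mem).imp fun _ hC =>
    (((Sp.continuous_val.prodMap Sp.continuous_val).tendsto (x, y)).eventually hC).mono
      fun p hp g e => hp p.1.val_mem g (congrArg Sp.val e)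

theorem prp_of_properSMul [IsAct act S] [ProperSMul Aˣ (Sp act S)] : Prp act S := by
  refine fun x hx x' hx' => bd_of_ultra fun U y s hy h1 h2 => ?_
  obtain ⟨g, -, hg⟩ := (properSMul_iff_continuousSMul_ultrafilter_tendsto.1
    (inferInstance : ProperSMul Aˣ (Sp act S))).2 (U.map fun n => (s n, Sp.of act _ (hy n)))
    (Sp.of act x' hx') (Sp.of act x hx) (Tendsto.prodMk_nhds
      (Sp.isEmbedding_val.tendsto_nhds_iff.2 h2) (Sp.isEmbedding_val.tendsto_nhds_iff.2 h1))
  exact ⟨_, ((Units.continuous_val.tendsto g).comp hg).norm.eventually_le_const (lt_add_one _)⟩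

variable [IsAct act univ]

theorem act_one (x : W) : act 1 x = x := IsAct.one x (mem_univ x)

theorem act_mul (s s' : Aˣ) (x : W) : act (s * s' : Aˣ) x = act s (act s' x) :=
  IsAct.mul _ _ s.isUnit s'.isUnit x (mem_univ x)

theorem act_inv (s : Aˣ) (x : W) : act (s⁻¹ : Aˣ) (act s x) = x := by
  rw [← act_mul (act := act), inv_mul_cancel, Units.val_one, act_one (act := act)]

theorem act_an (s : Aˣ) (x : W) : AnalyticAt ℂ (fun p : A × W => act p.1 p.2) (s, x) :=
  IsAct.an _ s.isUnit x (mem_univ x)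

theorem tendsto_act {α : Type*} {l : Filter α} {s : α → Aˣ} {u : Aˣ} {y : α → W}
    (hs : Tendsto s l (𝓝 u)) (hy : Tendsto y l (𝓝 x)) :
    Tendsto (fun n => act (s n) (y n)) l (𝓝 (act u x)) :=
  (act_an u x).continuousAt.tendsto.comp (((Units.continuous_val.tendsto u).comp hs).prodMk_nhds hy)

theorem Inv.isAct (h : Inv act S) : IsAct act S :=
  IsAct.mono inferInstance (subset_univ S) fun _ ⟨g, hg⟩ x hx => hg ▸ h g x hx

theorem Bd.smul (hT : Inv act T) (h : Bd act T x x') (s s' : Aˣ) :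
    Bd act T (act s x) (act s' x') := by
  obtain ⟨C, hC⟩ := h
  have h1 : Tendsto (fun q : W × W => (act (s⁻¹ : Aˣ) q.1, act (s'⁻¹ : Aˣ) q.2))
      (𝓝 (act s x, act s' x')) (𝓝 (x, x')) := by
    have := (tendsto_act (act := act) (tendsto_const_nhds (x := s⁻¹))
      (continuousAt_fst (p := (act s x, act s' x'))).tendsto).prodMk_nhds
      (tendsto_act (act := act) (tendsto_const_nhds (x := s'⁻¹)) continuousAt_snd.tendsto)
    rwa [act_inv (act := act), act_inv (act := act)] at this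
  refine ⟨‖(s' : A)‖ * C * ‖((s⁻¹ : Aˣ) : A)‖, (h1.eventually hC).mono fun q hq h2 g e => ?_⟩
  have h3 := hq (hT _ _ h2) (s'⁻¹ * g * s) (by
    rw [← act_mul (act := act), mul_inv_cancel_right, act_mul (act := act), e])
  rw [show g = s' * (s'⁻¹ * g * s) * s⁻¹ by group, Units.val_mul, Units.val_mul]
  exact (norm_mul_le _ _).trans (mul_le_mul_of_nonneg_right ((norm_mul_le _ _).trans
    (mul_le_mul_of_nonneg_left h3 (norm_nonneg _))) (norm_nonneg _))

theorem Bd.exists_tendsto (hT : Inv act T) (h : Bd act T x x') (h' : Bd act T x' x) {α : Type*}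
    (U : Ultrafilter α) {y : α → W} {s : α → Aˣ} (hy : ∀ᶠ n in U, y n ∈ T) (h1 : Tendsto y U (𝓝 x))
    (h2 : Tendsto (fun n => act (s n) (y n)) U (𝓝 x')) :
    ∃ u : Aˣ, Tendsto s U (𝓝 u) ∧ act u x = x' := by
  obtain ⟨C, hC⟩ := h
  obtain ⟨C', hC'⟩ := h'
  obtain ⟨u, hu⟩ := exists_tendsto_units U s
    ((((h1.prodMk_nhds h2).eventually hC).and hy).mono fun n hn => hn.1 hn.2 _ rfl)
    ((((h2.prodMk_nhds h1).eventually hC').and hy).mono fun n hn =>
      hn.1 (hT _ _ hn.2) _ (act_inv _ _))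
  exact ⟨u, hu, tendsto_nhds_unique (tendsto_act hu h1) h2⟩

theorem fix_of_fderiv {a : A} (h : fderiv ℂ (fun b => act b x) 1 a = 0) (z : ℂ) :
    act (NormedSpace.exp (z • a)) x = x := by
  let f : ℂ → W := fun z => act (expU (z • a)) x
  have f0 : f 0 = x := by simp only [f, zero_smul, isExp_expU.zero, Units.val_one, act_one]
  have h1 : HasDerivAt f 0 0 := by
    have h2 : AnalyticAt ℂ (fun b => act b x) (NormedSpace.exp ((0 : ℂ) • a)) :=
      (act_an (expU ((0 : ℂ) • a)) x).comp (f := fun b => (b, x))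
        (analyticAt_id.prod analyticAt_const)
    have := h2.differentiableAt.hasFDerivAt.comp_hasDerivAt 0 (hasDerivAt_exp_smul_const a (0 : ℂ))
    rwa [zero_smul, NormedSpace.exp_zero, one_mul, h] at this
  have h2 : ∀ s, HasDerivAt f 0 s := fun s => by
    have h3 : AnalyticAt ℂ (act (expU (s • a))) (f 0) :=
      (act_an (expU (s • a)) (f 0)).comp (f := fun w => ((expU (s • a) : A), w))
        (analyticAt_const.prod analyticAt_id)
    have h4 := h3.differentiableAt.hasFDerivAt.comp_hasDerivAt 0 h1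
    rw [map_zero, show _ ∘ f = fun w => f (s + w) from funext fun w => by
      simp only [f, comp_apply, isExp_expU.add, act_mul], ← sub_self s] at h4
    simpa only [add_sub_cancel, sub_self] using h4.comp_sub_const s s
  exact (is_const_of_deriv_eq_zero (fun s => (h2 s).differentiableAt) (fun s => (h2 s).deriv)
    z 0).trans f0

theorem Bd.injective (h : Bd act T x x) (hx : x ∈ T) :
    Injective (fderiv ℂ (fun b => act b x) 1) := by
  obtain ⟨C, hC⟩ := h
  refine (injective_iff_map_eq_zero _).2 fun a ha => ?_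
  have h1 := fun z : ℂ => hasDerivAt_exp_smul_const a z
  have h2 := Differentiable.apply_eq_apply_of_bounded (fun z => (h1 z).differentiableAt)
    (isBounded_iff_forall_norm_le.2 ⟨C, by
      rintro _ ⟨z, rfl⟩
      exact hC.self_of_nhds hx (expU (z • a)) (fix_of_fderiv ha z)⟩)
  have h3 := (h1 0).unique ((hasDerivAt_const (0 : ℂ) _).congr_of_eventuallyEq
    (Eventually.of_forall fun z => h2 z 0))
  rwa [zero_smul, NormedSpace.exp_zero, one_mul] at h3

theorem locFree_of_injective [IsAct act S] (t : Sp act S)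
    (h : Injective (fderiv ℂ (fun b => act b t.val) 1)) : Ch.LocFree Aˣ t := by
  have := FiniteDimensional.complete ℂ W
  have hm : IsMfd Sp.val (Module.finrank ℂ W) (Sp.incl act (subset_univ S) t) :=
    IsMfd.pull (ι := fun z : W => z) (u := Sp.val) (IsMfd.self _)
      (isOpen_univ.isOpenEmbedding_subtypeVal.lh _)
  have hi : Injective (inf (expU : A → Aˣ) Sp.val (Sp.incl act (subset_univ S) t)) := by
    rwa [Sp.inf_eq]
  obtain ⟨φ, h1, h2⟩ := hm.exists_slK isExp_expU (Sp.holAct _) hi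
    (Nat.add_sub_cancel' (hm.finrank_le isExp_expU (Sp.holAct _) hi))
  exact Ch.LocFree.of_map (Sp.isEmbedding_incl (subset_univ S)).continuous (Sp.incl_smul _)
    (h1 ▸ (h2.isSl isExp_expU).locFree)

theorem eventually_fix (h : Injective (fderiv ℂ (fun b => act b x) 1)) :
    ∀ᶠ q : Aˣ × W in 𝓝 (1, x), act q.1 q.2 = q.2 → q.1 = 1 := by
  obtain ⟨τ, -, h1⟩ := locFree_of_injective (Sp.of act x (mem_univ x)) h
  have h2 : Continuous fun q : Aˣ × W => (q.1, Sp.of act q.2 (mem_univ _)) :=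
    continuous_fst.prodMk (continuous_snd.subtype_mk _)
  refine ((h2.tendsto (1, x)).eventually h1).mono fun q hq e => ?_
  rw [show q.1 • Sp.of act q.2 (mem_univ _) = Sp.of act q.2 (mem_univ _) from Sp.ext e] at hq
  exact mul_eq_right.1 hq.symm

theorem Bd.finite (h : Bd act T x x) (hx : x ∈ T) : {s : Aˣ | act s x = x}.Finite := by
  obtain ⟨O, h2, h3, h4⟩ := _root_.eventually_nhds_iff.1
    ((tendsto_inl 1 x).eventually (eventually_fix (h.injective hx)))
  obtain ⟨C, hC⟩ := h
  have h5 : ∀ s : Aˣ, act s x = x → act (s⁻¹ : Aˣ) x = x := fun s e =>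
    (congrArg _ e.symm).trans (act_inv s x)
  refine IsCompact.finite (isCompact_iff_ultrafilter_le_nhds'.2 fun U hU => ?_)
    (isDiscrete_iff_forall_mem_exists_isOpen.2 fun g hg => ?_)
  · obtain ⟨u, hu⟩ := exists_tendsto_units U id (C := C) (C' := C)
      (mem_of_superset hU fun s e => hC.self_of_nhds hx s e)
      (mem_of_superset hU fun s e => hC.self_of_nhds hx s⁻¹ (h5 s e))
    exact ⟨u, tendsto_nhds_unique (tendsto_act hu tendsto_const_nhds)
      (tendsto_const_nhds.congr' (mem_of_superset hU fun s e => e.symm)), hu⟩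
  · refine ⟨(fun k => g⁻¹ * k) ⁻¹' O, h3.preimage (continuous_const.mul continuous_id),
      subset_antisymm ?_ ?_⟩
    · rintro k ⟨h6, h7⟩
      exact (inv_mul_eq_one.1 (h2 _ h6 (by rw [act_mul (act := act), h7, h5 g hg]))).symm
    · rintro _ rfl
      exact ⟨by rwa [mem_preimage, inv_mul_cancel], hg⟩

theorem Prp.finite [IsAct act S] (h : Prp act S) (t : Sp act S) :
    Finite (MulAction.stabilizer Aˣ t) :=
  (((h _ t.val_mem _ t.val_mem).finite t.val_mem).subset
    (t := MulAction.stabilizer Aˣ t) fun g hg => congrArg Sp.val (show g • t = t from hg)).to_subtype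

theorem Prp.orb [IsAct act S] [LocallyCompactSpace S] (h : Prp act S) : Orb.Orb Aˣ (Sp act S) :=
  haveI := FiniteDimensional.proper ℂ W
  ⟨inferInstance, h.properSMul, ⟨inferInstance, inferInstance, inferInstance⟩, fun t =>
    locFree_of_injective t ((h _ t.val_mem _ t.val_mem).injective t.val_mem)⟩

theorem Bd.eventually_fr (hT : Inv act T) (h : Bd act T x x) (hx : x ∈ T) (h1 : Fr act x) :
    ∀ᶠ y in 𝓝[T] x, Fr act y := by
  by_contra hn
  obtain ⟨U, hU⟩ := exists_ultrafilter_iff.2 (frequently_iff_neBot.1 (not_eventually.1 hn))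
  obtain ⟨h2, h3⟩ := le_inf_iff.1 hU
  have h4 : Tendsto id U (𝓝 x) := h2.trans nhdsWithin_le_nhds
  have h5 : ∀ y, ∃ s : Aˣ, act s y = y ∧ (¬Fr act y → s ≠ 1) := fun y => by
    by_cases e : Fr act y
    · exact ⟨1, act_one y, fun e' => (e' e).elim⟩
    · obtain ⟨s, hs⟩ := not_forall.1 e
      exact ⟨s, (Classical.not_imp.1 hs).1, fun _ => (Classical.not_imp.1 hs).2⟩
  choose s h6 h7 using h5
  obtain ⟨u, h8, h9⟩ := h.exists_tendsto hT h U (s := s) (h2 self_mem_nhdsWithin) h4
    (h4.congr fun y => (h6 y).symm)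
  rw [h1 u h9] at h8
  obtain ⟨y, e1, e2⟩ := (((h8.prodMk_nhds h4).eventually (eventually_fix (h.injective hx))).and
    (le_principal_iff.1 h3)).exists
  exact h7 y e2 (e1 (h6 y))

end Vale.Agent.P269.Holo
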