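import Vale.Agent.P269.Defs.Chart
import Vale.Agent.P269.Base.Pol
import Vale.Agent.P269.Base.Fam

/-!
# Calculus of `wedge`, torus invariance of `gr`
-/

namespace Vale.Agent.P269.Ch

open Set Function Topology Filter Base

set_option linter.unusedSectionVars false

variable {J ι ν : Type} [Fintype J] [Fintype ι] [DecidableEq ι] [Fintype ν] {ch : Ch ι J}

/-- The arguments of a test form: `m` in the first slots and `c` in the others. -/
def args (m : Fin ch.k × Bool → Fin (ch.M ch.o) → ℂ) (c : V ch.M) :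
    ∀ s, Fin (ch.M (ch.slot s)) → ℂ := fun s => Sum.rec (motive := fun s => Fin (ch.M (ch.slot s)) → ℂ)
      m (fun s => c s.1) s

theorem wedge_eq (μ : Tn ch.M ch.slot) (c v : V ch.M) :
    wedge μ c v = ∑ ε : Fin ch.k → Bool, (∏ i, if ε i then -1 else 1) *
      μ (args (fun s => if ε s.1 = s.2 then c ch.o else v ch.o) c) := rfl

theorem args_smul (μ : Tn ch.M ch.slot) (m : Fin ch.k × Bool → Fin (ch.M ch.o) → ℂ) (t : ι → ℂ)
    (c : V ch.M) : μ (args m (t • c)) = chr ch.bω t * μ (args m c) := by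
  have h := μ.map_smul_univ (Sum.elim (fun _ => 1) fun s => t s.1) (args m c)
  rw [Fintype.prod_sum_type, Fintype.prod_sigma] at h
  simp only [Sum.elim_inl, Sum.elim_inr, Finset.prod_const, one_pow, one_mul, Finset.card_univ,
    Fintype.card_fin] at h
  refine Eq.trans (congrArg μ (funext fun s => ?_)) h
  cases s
  · exact (one_smul _ _).symm
  · rfl

theorem args_update [DecidableEq (Fin ch.k × Bool)]
    [DecidableEq ((Fin ch.k × Bool) ⊕ Σ i, Fin (ch.bω i))]
    (m : Fin ch.k × Bool → Fin (ch.M ch.o) → ℂ) (c : V ch.M) (s : Fin ch.k × Bool)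
    (z : Fin (ch.M ch.o) → ℂ) : args (update m s z) c = update (args m c) (Sum.inl s) z := by
  funext r
  rcases r with r | r
  · by_cases h : r = s
    · subst h
      exact (update_self r z m).trans (update_self (Sum.inl r) _ (args m c)).symm
    · exact (update_of_ne h z m).trans
        (update_of_ne (Sum.inl_injective.ne h) _ (args m c)).symm
  · exact (update_of_ne Sum.inr_ne_inl _ (args m c)).symm

theorem args_sum (μ : Tn ch.M ch.slot) (co : Fin ch.k × Bool → Bool → ℂ)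
    (e : Bool → Fin (ch.M ch.o) → ℂ) (c : V ch.M) :
    μ (args (fun s => ∑ κ, co s κ • e κ) c) =
      ∑ κ : Fin ch.k × Bool → Bool, (∏ s, co s (κ s)) * μ (args (fun s => e (κ s)) c) := by
  classical
  let N : MultilinearMap ℂ (fun _ : Fin ch.k × Bool => Fin (ch.M ch.o) → ℂ) ℂ :=
    { toFun := fun m => μ (args m c)
      map_update_add' := fun m s x y => by
        simp only [args_update]
        exact μ.map_update_add _ _ _ _
      map_update_smul' := fun m s a x => by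
        simp only [args_update]
        exact μ.map_update_smul _ _ _ _ }
  change N _ = ∑ κ : Fin ch.k × Bool → Bool, _ * N _
  rw [N.map_sum]
  exact Finset.sum_congr rfl fun κ _ => N.map_smul_univ _ _

/-- The transformation rule in the factor `o`. -/
theorem sum_args (μ : Tn ch.M ch.slot) (c : V ch.M) (x y : Fin (ch.M ch.o) → ℂ) (s a b : ℂ) :
    ∑ ε : Fin ch.k → Bool, (∏ i, if ε i then -1 else 1) *
      μ (args (fun r => if ε r.1 = r.2 then s • x else a • x + b • y) c) =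
    (s * b) ^ ch.k * ∑ ε : Fin ch.k → Bool, (∏ i, if ε i then -1 else 1) *
      μ (args (fun r => if ε r.1 = r.2 then x else y) c) := by
  classical
  let co : ℂ → ℂ → ℂ → Bool → Bool → Bool → ℂ := fun s a b ε β κ =>
    if ε = β then (if κ then s else 0) else if κ then a else b
  let e : Bool → Fin (ch.M ch.o) → ℂ := fun κ => if κ then x else y
  have key : ∀ s a b : ℂ, ∑ ε : Fin ch.k → Bool, (∏ i, if ε i then -1 else 1) *
      μ (args (fun r => if ε r.1 = r.2 then s • x else a • x + b • y) c) =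
      ∑ κ : Fin ch.k × Bool → Bool, (∏ i, ∑ ε : Bool, (if ε then -1 else 1) *
        ∏ β, co s a b ε β (κ (i, β))) * μ (args (fun r => e (κ r)) c) := by
    intro s a b
    have h1 : ∀ ε : Fin ch.k → Bool, (fun r : Fin ch.k × Bool =>
        if ε r.1 = r.2 then s • x else a • x + b • y) =
        fun r => ∑ κ, co s a b (ε r.1) r.2 κ • e κ := fun ε => funext fun r => by
      by_cases h : ε r.1 = r.2 <;> simp [co, e, h]
    simp only [h1, args_sum, Finset.mul_sum]
    rw [Finset.sum_comm]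
    refine Finset.sum_congr rfl fun κ _ => ?_
    rw [Fintype.prod_sum, Finset.sum_mul]
    refine Finset.sum_congr rfl fun ε _ => ?_
    rw [Finset.prod_mul_distrib, Fintype.prod_prod_type, mul_assoc]
  have h2 := key 1 0 1
  simp only [one_smul, zero_smul, zero_add] at h2
  rw [key, h2, Finset.mul_sum]
  refine Finset.sum_congr rfl fun κ _ => ?_
  rw [← mul_assoc, ← Fin.prod_const, ← Finset.prod_mul_distrib]
  congr 1
  refine Finset.prod_congr rfl fun i _ => ?_
  cases h1 : κ (i, true) <;> cases h2 : κ (i, false) <;> simp [co, h1, h2] <;> ring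

/-- The transformation rule of `wedge`. -/
theorem wedge_smul (μ : Tn ch.M ch.slot) (s : ι → ℂ) (c v v' : V ch.M) {a b : ℂ}
    (h : v' ch.o = a • c ch.o + b • v ch.o) :
    wedge μ (s • c) v' = chr ch.bω s * (s ch.o * b) ^ ch.k * wedge μ c v := by
  rw [wedge_eq, wedge_eq, mul_assoc, ← sum_args μ c _ _ (s ch.o) a b, Finset.mul_sum]
  refine Finset.sum_congr rfl fun ε _ => ?_
  rw [args_smul, h, mul_left_comm]
  rfl

theorem wedge_of_eq (μ : Tn ch.M ch.slot) (c v v' : V ch.M) {a b : ℂ}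
    (h : v' ch.o = a • c ch.o + b • v ch.o) : wedge μ c v' = b ^ ch.k * wedge μ c v := by
  simpa using wedge_smul μ 1 c v v' h

theorem wedge_smul_right (μ : Tn ch.M ch.slot) (c v : V ch.M) (b : ℂ) :
    wedge μ c (b • v) = b ^ ch.k * wedge μ c v :=
  wedge_of_eq μ c v _ (a := 0) (by simp)

theorem wedge_sub (s : ch.A ν) (μ : Tn ch.M ch.slot) (c v : V ch.M) :
    wedge (sub s _ μ) c v = wedge μ (fun i => s.1 i (c i)) fun i => s.1 i (v i) := by
  rw [wedge_eq, wedge_eq]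
  refine Finset.sum_congr rfl fun ε _ => congrArg _ ?_
  change μ _ = μ _
  refine congrArg μ (funext fun r => ?_)
  rcases r with r | r
  · exact apply_ite (s.1 ch.o) _ _ _
  · rfl

theorem val_sub (s : ch.A ν) {a : ι → ℕ} (μ : Tens ch.M a) (c : V ch.M) :
    val (sub s _ μ) c = val μ fun i => s.1 i (c i) := rfl

/-- `wedge` as a linear form in the test form. -/
noncomputable def wedgeL (c v : V ch.M) : Tn ch.M ch.slot →L[ℂ] ℂ :=
  ∑ ε : Fin ch.k → Bool, (∏ i, if ε i then (-1 : ℂ) else 1) •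
    ContinuousMultilinearMap.apply ℂ _ ℂ (args (fun s => if ε s.1 = s.2 then c ch.o else v ch.o) c)

@[simp] theorem wedgeL_apply (c v : V ch.M) (μ : Tn ch.M ch.slot) : wedgeL c v μ = wedge μ c v := by
  simp [wedgeL, wedge_eq]

theorem analyticAt_wedge₃ (p : Tn ch.M ch.slot × V ch.M × V ch.M) :
    AnalyticAt ℂ (fun p : Tn ch.M ch.slot × V ch.M × V ch.M => wedge p.1 p.2.1 p.2.2) p := by
  simp only [wedge_eq]
  refine Finset.analyticAt_fun_sum _ fun ε _ => analyticAt_const.mul ?_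
  refine (ContinuousLinearMap.id ℂ (Tn ch.M ch.slot)).analyticAt_uncurry_of_multilinear.comp
    (f := fun p : Tn ch.M ch.slot × V ch.M × V ch.M =>
      (p.1, args (fun s => if ε s.1 = s.2 then p.2.1 ch.o else p.2.2 ch.o) p.2.1))
    (analyticAt_fst.prod (AnalyticAt.pi fun s => ?_))
  have h1 : AnalyticAt ℂ (fun p : Tn ch.M ch.slot × V ch.M × V ch.M => p.2.1) p :=
    analyticAt_fst.comp analyticAt_snd
  have h2 : AnalyticAt ℂ (fun p : Tn ch.M ch.slot × V ch.M × V ch.M => p.2.2) p :=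
    analyticAt_snd.comp analyticAt_snd
  rcases s with s | s
  · change AnalyticAt ℂ (fun p : Tn ch.M ch.slot × V ch.M × V ch.M =>
      if ε s.1 = s.2 then p.2.1 ch.o else p.2.2 ch.o) p
    split_ifs
    exacts [analyticAt_pi_iff.1 h1 _, analyticAt_pi_iff.1 h2 _]
  · exact analyticAt_pi_iff.1 h1 _

theorem an_wedge {P : Type*} [NormedAddCommGroup P] [NormedSpace ℂ P] {μ : P → Tn ch.M ch.slot}
    {c v : P → V ch.M} {p : P} (hμ : AnalyticAt ℂ μ p) (hc : AnalyticAt ℂ c p)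
    (hv : AnalyticAt ℂ v p) : AnalyticAt ℂ (fun q => wedge (μ q) (c q) (v q)) p := by
  have h := AnalyticAt.comp (f := fun q => (μ q, c q, v q)) (x := p)
    (analyticAt_wedge₃ (μ p, c p, v p)) (hμ.prod (hc.prod hv))
  simpa only [Function.comp_def] using h

theorem tendsto_wedge {α : Type*} {l : Filter α} {μ : α → Tn ch.M ch.slot} {c v : α → V ch.M}
    {μ₀ : Tn ch.M ch.slot} {c₀ v₀ : V ch.M} (hμ : Tendsto μ l (𝓝 μ₀)) (hc : Tendsto c l (𝓝 c₀))
    (hv : Tendsto v l (𝓝 v₀)) :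
    Tendsto (fun n => wedge (μ n) (c n) (v n)) l (𝓝 (wedge μ₀ c₀ v₀)) := by
  have h := (analyticAt_wedge₃ (μ₀, c₀, v₀)).continuousAt.tendsto.comp
    (hμ.prodMk_nhds (hc.prodMk_nhds hv))
  simpa only [Function.comp_def] using h

theorem exists_dual_one {n : ℕ} {x : Fin n → ℂ} (hx : x ≠ 0) :
    ∃ ζ : (Fin n → ℂ) →L[ℂ] ℂ, ζ x = 1 := by
  obtain ⟨j, hj⟩ := Function.ne_iff.1 hx
  exact ⟨(x j)⁻¹ • ContinuousLinearMap.proj j, by simpa using inv_mul_cancel₀ hj⟩

theorem exists_dual_pair {n : ℕ} {x y : Fin n → ℂ} (h : LinearIndependent ℂ ![x, y]) :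
    ∃ ζ : (Fin n → ℂ) →L[ℂ] ℂ, ζ x = 1 ∧ ζ y = 0 := by
  have h1 : x ∉ Submodule.span ℂ {y} := fun h2 => by
    obtain ⟨a, ha⟩ := Submodule.mem_span_singleton.1 h2
    exact one_ne_zero (LinearIndependent.pair_iff.1 h 1 (-a) (by rw [← ha]; module)).1
  obtain ⟨f, h2, h3⟩ := Submodule.exists_le_ker_of_notMem h1
  exact ⟨(f x)⁻¹ • LinearMap.toContinuousLinearMap f, by simpa using inv_mul_cancel₀ h2,
    by simp [show f y = 0 from h3 (Submodule.mem_span_singleton_self y)]⟩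

theorem exists_val_one {M a : ι → ℕ} {c : V M} (hc : ∀ i, c i ≠ 0) :
    ∃ μ : Tens M a, val μ c = 1 := by
  choose ζ hζ using fun i => exists_dual_one (hc i)
  obtain ⟨μ, hμ⟩ := Pol.mono ζ a
  exact ⟨μ, (congrFun hμ c).trans (by simp [hζ])⟩

/-- Some test form does not vanish on `(c ∧ v)^k ⊗ c^bω`. -/
theorem exists_wedge_ne {c v : V ch.M} (hc : ∀ i, c i ≠ 0)
    (h : LinearIndependent ℂ ![c ch.o, v ch.o]) : ∃ μ : Tn ch.M ch.slot, wedge μ c v ≠ 0 := by
  classical
  choose ζ hζ using fun i => exists_dual_one (hc i)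
  obtain ⟨ζ₀, h1, h2⟩ := exists_dual_pair h
  obtain ⟨ζ₁, h3, h4⟩ := exists_dual_pair (LinearIndependent.pair_symm_iff.1 h)
  let ℓ : ∀ s, (Fin (ch.M (ch.slot s)) → ℂ) →L[ℂ] ℂ := fun s =>
    Sum.rec (motive := fun s => (Fin (ch.M (ch.slot s)) → ℂ) →L[ℂ] ℂ)
      (fun s => if s.2 then ζ₁ else ζ₀) (fun s => ζ s.1) s
  refine ⟨(ContinuousMultilinearMap.mkPiAlgebra ℂ _ ℂ).compContinuousLinearMap ℓ, ?_⟩
  have key : ∀ ε : Fin ch.k → Bool,
      (ContinuousMultilinearMap.mkPiAlgebra ℂ _ ℂ).compContinuousLinearMap ℓ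
        (args (fun s => if ε s.1 = s.2 then c ch.o else v ch.o) c) =
      ∏ i, if ε i then 0 else 1 := fun ε => by
    change ∏ s, ℓ s _ = _
    rw [Fintype.prod_sum_type, Fintype.prod_prod_type]
    have e1 : ∏ s : Σ i, Fin (ch.bω i), ℓ (Sum.inr s)
        (args (fun s => if ε s.1 = s.2 then c ch.o else v ch.o) c (Sum.inr s)) = 1 :=
      Finset.prod_eq_one fun s _ => hζ s.1
    rw [e1, mul_one]
    refine Finset.prod_congr rfl fun i _ => ?_
    rw [Fintype.prod_bool]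
    change ζ₁ (if ε i = true then c ch.o else v ch.o) *
      ζ₀ (if ε i = false then c ch.o else v ch.o) = _
    cases ε i <;> simp [h1, h3, h4]
  rw [wedge_eq]
  simp only [key, ← Finset.prod_mul_distrib]
  rw [← Fintype.prod_sum fun (_ : Fin ch.k) (ε : Bool) =>
    (if ε then (-1 : ℂ) else 1) * if ε then 0 else 1]
  simp

/-! ### Torus invariance -/

theorem gr_smul {x : ch.W ν} {c : V ch.M} {u : ∀ l, ch.E l →L[ℂ] ℂ} (h : (c, u) ∈ gr x)
    {s : ι → ℂ} (hs : ∀ i, s i ≠ 0) : (s • c, fun l => chr (ch.a l) s • u l) ∈ gr x :=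
  ⟨smul_ne hs h.1, fun l μ => by
    change chr (ch.a l) s * u l (x.Q l μ) = val μ (s • c)
    rw [val_smul, h.2 l μ]⟩

theorem crv_smul {x : ch.W ν} {c : V ch.M} (h : c ∈ crv x) {s : ι → ℂ} (hs : ∀ i, s i ≠ 0) :
    s • c ∈ crv x := by
  obtain ⟨⟨c, u⟩, h1, rfl⟩ := h
  exact ⟨_, gr_smul h1 hs, rfl⟩

theorem mem_crv {x : ch.W ν} {c : V ch.M} : c ∈ crv x ↔ ∃ u, (c, u) ∈ gr x :=
  ⟨fun ⟨z, h1, h2⟩ => ⟨z.2, h2 ▸ h1⟩, fun ⟨_, h⟩ => ⟨_, h, rfl⟩⟩

theorem crv_ne {x : ch.W ν} {c : V ch.M} (h : c ∈ crv x) (i : ι) : c i ≠ 0 := by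
  obtain ⟨u, h⟩ := mem_crv.1 h
  exact h.1 i

theorem gr_unique {x : ch.W ν} {c : V ch.M} {u u' : ∀ l, ch.E l →L[ℂ] ℂ} (h : (c, u) ∈ gr x)
    (h' : (c, u') ∈ gr x) {l : Option J} (hl : Surjective (x.Q l)) : u l = u' l :=
  ContinuousLinearMap.ext fun e => by
    obtain ⟨μ, rfl⟩ := hl e
    exact (h.2 l μ).trans (h'.2 l μ).symm

end Vale.Agent.P269.Ch
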