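import Vale.Agent.P269.Prop.TopA

/-!
# Invariant neighbourhoods with proper action; density of free points
-/

set_option linter.unusedSectionVars false

namespace Vale.Agent.P269.Holo

open Set Function Topology Filter

variable {A W : Type} [NormedRing A] [NormedAlgebra ℂ A] [CompleteSpace A] [FiniteDimensional ℂ A]
  [NormedAddCommGroup W] [NormedSpace ℂ W] [FiniteDimensional ℂ W] {act : A → W → W}
  {S T Z O : Set W} {x x' y : W} {D : Submodule ℂ W}

variable [IsAct act univ]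

namespace TopB

theorem ev_of_ultra {α β : Type*} [Nonempty β] {l : Filter α} {p : α → β → Prop}
    (h : ∀ (U : Ultrafilter α) (s : α → β), ↑U ≤ l → (∀ᶠ a in U, ¬p a (s a)) → False) :
    ∀ᶠ a in l, ∀ b, p a b := by
  refine mem_iff_ultrafilter.2 fun U hU => by_contra fun a => ?_
  have b : ∀ᶠ a in U, ∃ b, ¬p a b :=
    (Ultrafilter.eventually_not.2 a).mono fun _ c => not_forall.1 c
  exact h U (fun a => Classical.epsilon fun b => ¬p a b) hU (b.mono fun _ => Classical.epsilon_spec)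

variable (act) in
theorem an (s : Aˣ) (x : W) : AnalyticAt ℂ (fun p : A × W => act p.1 p.2) (s, x) :=
  IsAct.an (S := univ) _ s.isUnit _ trivial

variable (act) in
theorem cont : Continuous fun p : Aˣ × W => act p.1 p.2 :=
  continuous_iff_continuousAt.2 fun p => ContinuousAt.comp (f := fun p : Aˣ × W => ((p.1 : A), p.2))
    (an act p.1 p.2).continuousAt (Units.continuous_val.prodMap continuous_id).continuousAt

variable (act) in
theorem cont' (s : Aˣ) : Continuous (act s) := (cont act).comp (Continuous.prodMk_right s)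

variable (act) in
theorem act_one (x : W) : act 1 x = x := IsAct.one (S := univ) x trivial

variable (act) in
theorem act_mul (s t : Aˣ) (x : W) : act (s * t : Aˣ) x = act s (act t x) :=
  IsAct.mul (S := univ) _ _ s.isUnit t.isUnit x trivial

variable (act) in
theorem act_inv (s : Aˣ) (x : W) : act (s⁻¹ : Aˣ) (act s x) = x := by
  rw [← act_mul act, inv_mul_cancel, Units.val_one, act_one act]

theorem exists_sat {V : Set W} (hV : IsOpen V) :
    ∃ O, IsOpen O ∧ Inv act O ∧ V ⊆ O ∧ ∀ y ∈ O, ∃ s : Aˣ, act s y ∈ V := by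
  refine ⟨⋃ s : Aˣ, act s ⁻¹' V, isOpen_iUnion fun s => hV.preimage (cont' act s),
    fun t y hy => ?_, fun y hy => mem_iUnion.2 ⟨1, by simpa [act_one act] using hy⟩,
    fun y hy => mem_iUnion.1 hy⟩
  obtain ⟨s, hs⟩ := mem_iUnion.1 hy
  refine mem_iUnion.2 ⟨s * t⁻¹, ?_⟩
  rwa [mem_preimage, act_mul act, act_inv act]

theorem bd_of_ne (hT : Inv act T) {Y : Type} [TopologicalSpace Y] [T2Space Y] {f : T → Y}
    (hf : Continuous f) (hi : ∀ (s : Aˣ) (a b : T), act s a = b → f a = f b) {a b : T}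
    (h : f a ≠ f b) : Bd act T a b := by
  have h1 : IsOpen {q : T × T | f q.1 ≠ f q.2} := isOpen_ne_fun (by fun_prop) (by fun_prop)
  obtain ⟨V, h2, h3⟩ := (IsInducing.subtypeVal.prodMap IsInducing.subtypeVal).isOpen_iff.1 h1
  refine ⟨0, (h2.eventually_mem (show ((a : W), (b : W)) ∈ V from
    (Set.ext_iff.1 h3 (a, b)).2 h)).mono fun q h4 h5 s e => ?_⟩
  have h6 : q.2 ∈ T := by rw [← e]; exact hT s _ h5
  exact absurd (hi s ⟨_, h5⟩ ⟨_, h6⟩ e) ((Set.ext_iff.1 h3 (⟨_, h5⟩, ⟨_, h6⟩)).1 h4)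

theorem exists_loc [IsAct act T] (hT : Inv act T) (hZT : Z ⊆ T)
    (h : ∀ x ∈ Z, ∀ x' ∈ Z, Bd act T x x') {Y : Type} [TopologicalSpace Y] [T2Space Y]
    [FirstCountableTopology Y] {f : T → Y} (hf : Continuous f)
    (hi : ∀ (s : Aˣ) (a b : T), act s a = b → f a = f b)
    (cpt : ∀ (a : ℕ → T) (p : Y), (∀ n, (a n : W) ∈ Z) → Tendsto (fun n => f (a n)) atTop (𝓝 p) →
      ∃ z ∈ Z, ∃ s : ℕ → Aˣ, MapClusterPt z atTop fun n => act (s n) (a n)) {L : Set Y}
    (hL : IsCompact L) : ∃ U : Set (Quo act T), IsOpen U ∧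
      (∀ a : Sp act T, a.val ∈ Z → f a ∈ L → Sp.mk a ∈ U) ∧
      ∀ a b : Sp act T, Sp.mk a ∈ U → Sp.mk b ∈ U → Bd act T a.val b.val := by
  let K : Set (Sp act T) := {a | a.val ∈ Z ∧ f a ∈ L}
  have hK : IsCompact (Sp.mk '' K) := by
    refine IsLindelof.isCompact (IsCountablyCompact.of_seq_clusterPt fun u hu => ?_)
      ((HereditarilyLindelofSpace.isLindelof K).image Sp.continuous_mk)
    obtain ⟨ψ, h1, h2⟩ := extraction_of_eventually_atTop hu
    choose a h3 h4 using h2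
    obtain ⟨p, h5, φ, h6, h7⟩ := hL.tendsto_subseq fun n => (h3 n).2
    obtain ⟨z, h8, s, h9⟩ := cpt (fun n => a (φ n)) p (fun n => (h3 _).1) h7
    have h10 : MapClusterPt (Sp.of act z (hZT h8)) atTop fun n => s n • a (φ n) :=
      (Sp.isEmbedding_val.isInducing.mapClusterPt_iff).1 h9
    refine ⟨Sp.mk (Sp.of act z (hZT h8)), ⟨Sp.of act z (hZT h8), ⟨h8, ?_⟩, rfl⟩, ?_⟩
    · have h11 := h10.continuousAt_comp (f := fun a : Sp act T => f a) hf.continuousAt
      have h12 : Tendsto ((fun a : Sp act T => f a) ∘ fun n => s n • a (φ n)) atTop (𝓝 p) :=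
        h7.congr fun n => hi (s n) _ _ rfl
      exact (eq_of_nhds_neBot (h11.clusterPt.mono h12)).symm ▸ h5
    · have h11 := h10.continuousAt_comp Sp.continuous_mk.continuousAt
      refine MapClusterPt.of_comp (h1.comp h6).tendsto_atTop ?_
      rwa [show u ∘ ψ ∘ φ = Sp.mk ∘ fun n => s n • a (φ n) from
        funext fun n => (h4 _).symm.trans (Sp.mk_smul _ _).symm]
  have hP : IsOpen {q : Sp act T × Sp act T | Bd act T q.1.val q.2.val} :=
    (isOpen_iff_mem_nhds.2 fun q hq => Bd.eventually hq :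
      IsOpen {q : W × W | Bd act T q.1 q.2}).preimage (Sp.continuous_val.prodMap Sp.continuous_val)
  obtain ⟨u, v, h1, h2, h3, h4, h5⟩ := generalized_tube_lemma hK hK
    ((Sp.isOpenQuotientMap_mk.isOpenMap.prodMap Sp.isOpenQuotientMap_mk.isOpenMap) _ hP) (by
      rintro ⟨_, _⟩ ⟨⟨a, ha, rfl⟩, b, hb, rfl⟩
      exact ⟨(a, b), h _ ha.1 _ hb.1, rfl⟩)
  refine ⟨u ∩ v, h1.inter h2, fun a b c => ⟨h3 ⟨a, ⟨b, c⟩, rfl⟩, h4 ⟨a, ⟨b, c⟩, rfl⟩⟩,
    fun a b ha hb => ?_⟩
  obtain ⟨q, h6, h7⟩ := h5 (mk_mem_prod ha.1 hb.2)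
  obtain ⟨s, rfl⟩ := Sp.mk_eq_iff.1 (congrArg Prod.fst h7)
  obtain ⟨t, rfl⟩ := Sp.mk_eq_iff.1 (congrArg Prod.snd h7)
  exact Bd.smul hT h6 s t

variable (act) in
/-- the differential of the orbit map together with one more direction -/
noncomputable def dd (y v : W) : A × ℂ →L[ℂ] W :=
  (fderiv ℂ (fun b => act b y) 1).comp (.fst ℂ A ℂ) + (ContinuousLinearMap.snd ℂ A ℂ).smulRight v

theorem dd_apply (y v : W) (p : A × ℂ) :
    dd act y v p = fderiv ℂ (fun b => act b y) 1 p.1 + p.2 • v := rfl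

variable (act) in
theorem cont_fd : Continuous fun y => fderiv ℂ (fun b => act b y) 1 := by
  refine continuous_clm_apply.2 fun a => continuous_iff_continuousAt.2 fun y => ?_
  have : (fun y => fderiv ℂ (fun b => act b y) 1 a) =
      fun y => fderiv ℂ (fun p : A × W => act p.1 p.2) (1, y) (a, 0) :=
    funext fun y => fderiv_inl (an act 1 y) a
  rw [this]
  exact ((an act 1 y).fderiv.continuousAt.comp (tendsto_inr _ _)).clm_apply continuousAt_const

theorem cont_dd : Continuous fun q : W × W => dd act q.1 q.2 :=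
  continuous_clm_apply.2 fun p => (((cont_fd act).comp continuous_fst).clm_apply
    (continuous_const (y := p.1))).add (continuous_snd.const_smul p.2)

theorem inj_dd {v : W} (h : Injective (fderiv ℂ (fun b => act b y) 1))
    (hv : ∀ a, fderiv ℂ (fun b => act b y) 1 a ≠ v) : Injective (dd act y v) := by
  refine (injective_iff_map_eq_zero _).2 fun p hp => ?_
  rw [dd_apply] at hp
  have e : p.2 = 0 := by_contra fun e => hv (-(p.2⁻¹ • p.1)) (by
    rw [map_neg, map_smul, eq_neg_of_add_eq_zero_left hp, smul_neg, neg_neg, inv_smul_smul₀ e])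
  rw [e, zero_smul, add_zero] at hp
  exact Prod.ext ((injective_iff_map_eq_zero _).1 h _ hp) e

theorem ev_ne {δ w : W} (h : Injective (dd act y (w - δ))) :
    ∀ᶠ q : A × ℂ in 𝓝[≠] (1, 0), act q.1 (y + q.2 • w) ≠ y + q.2 • δ := by
  have h1 : HasFDerivAt (fun q : A × ℂ => (q.1, y + q.2 • w)) ((ContinuousLinearMap.fst ℂ A ℂ).prod
      ((ContinuousLinearMap.snd ℂ A ℂ).smulRight w)) (1, 0) :=
    hasFDerivAt_fst.prodMk ((hasFDerivAt_snd.smul_const w).const_add y)
  have h0 : HasFDerivAt (fun p : A × W => act p.1 p.2)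
      (fderiv ℂ (fun p : A × W => act p.1 p.2) (1, y)) (1, y + (0 : ℂ) • w) := by
    rw [zero_smul, add_zero]
    exact (an act 1 y).differentiableAt.hasFDerivAt
  have h2 := (HasFDerivAt.comp ((1 : A), (0 : ℂ)) h0 h1).sub
    ((hasFDerivAt_snd.smul_const δ).const_add y)
  obtain ⟨K, -, hK⟩ := (dd act y (w - δ)).injective_iff_antilipschitz.1 h
  refine ((h2.congr_fderiv (g' := dd act y (w - δ)) ?_).eventually_ne (c := 0) ⟨K, hK⟩).mono
    fun q hq => sub_ne_zero.1 hq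
  refine ContinuousLinearMap.ext fun p => ?_
  have h3 := fderiv_prod_apply (an act 1 y) p.1 (p.2 • w)
  have h4 : (fun z => act (1 : Aˣ) z) = id := funext (act_one act)
  simp only [h4, fderiv_id, ContinuousLinearMap.id_apply] at h3
  rw [dd_apply, smul_sub, ← add_sub_assoc]
  exact congrArg (· - p.2 • δ) h3

theorem den {ρ : Aˣ → W →ₗ[ℂ] W}
    (hρ : ∀ (s : Aˣ) y, ∀ δ ∈ D, act s (y + δ) = act s y + ρ s δ ∧ ρ s δ ∈ D) (hT : Inv act T)
    (hD : ∀ y ∈ T, ∀ δ ∈ D, y + δ ∈ T) (h : Bd act T y y) (hy : y ∈ T) {δ : W} (hδ : δ ∈ D)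
    (eff : ∀ s : Aˣ, act s y = y → s ≠ 1 → Injective (dd act y (ρ s δ - δ))) : Den act D y := by
  have t : Tendsto (fun e : ℂ => y + e • δ) (𝓝[≠] 0) (𝓝 y) :=
    tendsto_nhdsWithin_of_tendsto_nhds (Continuous.tendsto' (by fun_prop) _ _ (by simp))
  refine mem_closure_of_tendsto t ((ev_of_ultra (p := fun (e : ℂ) (s : Aˣ) =>
    act s (y + e • δ) = y + e • δ → s = 1) fun U s hU hs => ?_).mono fun e he =>
      ⟨by simpa using D.smul_mem e hδ, he⟩)
  simp only [Classical.not_imp] at hs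
  have t' := t.mono_left hU
  obtain ⟨u, h1, h2⟩ := h.exists_tendsto hT h U (s := s)
    (.of_forall fun e => hD y hy _ (D.smul_mem e hδ)) t' (t'.congr' (hs.mono fun e a => a.1.symm))
  by_cases hu : u = 1
  · subst hu
    obtain ⟨e, a, b⟩ := (((h1.prodMk_nhds t').eventually (eventually_fix (h.injective hy))).and
      hs).exists
    exact b.2 (a b.1)
  · have h3 : Tendsto (fun e => (((s e * u⁻¹ : Aˣ) : A), e)) U (𝓝[≠] (1, 0)) := by
      refine tendsto_nhdsWithin_iff.2 ⟨Tendsto.prodMk_nhds ?_ (hU.trans nhdsWithin_le_nhds), ?_⟩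
      · have := Units.continuous_val.continuousAt.tendsto.comp (h1.mul_const u⁻¹)
        rwa [mul_inv_cancel] at this
      · exact Eventually.filter_mono hU (eventually_mem_nhdsWithin.mono fun e a b =>
          a (congrArg Prod.snd b))
    obtain ⟨e, a, b⟩ := ((h3.eventually (ev_ne (eff u h2 hu))).and hs).exists
    refine a (Eq.trans ?_ b.1)
    have h4 := (hρ u y _ (D.smul_mem e hδ)).1
    rw [h2, map_smul] at h4
    rw [← h4, act_mul act, act_inv act]

end TopB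

open TopB

/-- an invariant open neighbourhood of `Z` on which the action is proper -/
theorem exists_prp (hT : Inv act T) (_hZ : Inv act Z) (hZT : Z ⊆ T)
    (h : ∀ x ∈ Z, ∀ x' ∈ Z, Bd act T x x') {Y : Type} [TopologicalSpace Y] [T2Space Y]
    [LocallyCompactSpace Y] [SecondCountableTopology Y] {f : T → Y} (hf : Continuous f)
    (hi : ∀ (s : Aˣ) (a b : T), act s a = b → f a = f b)
    (cpt : ∀ (a : ℕ → T) (p : Y), (∀ n, (a n : W) ∈ Z) → Tendsto (fun n => f (a n)) atTop (𝓝 p) →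
      ∃ z ∈ Z, ∃ s : ℕ → Aˣ, MapClusterPt z atTop fun n => act (s n) (a n)) :
    ∃ O, IsOpen O ∧ Inv act O ∧ Z ⊆ O ∧ Prp act (T ∩ O) := by
  have := hT.isAct
  choose L hL hp using fun p : Y => exists_compact_mem_nhds p
  choose U h1 h2 h3 using fun p => exists_loc hT hZT h hf hi cpt (hL p)
  obtain ⟨v, -, h4, h5, h6⟩ := precise_refinement (fun p => interior (L p))
    (fun _ => isOpen_interior)
    (eq_univ_of_forall fun p => mem_iUnion.2 ⟨p, mem_interior_iff_mem_nhds.2 (hp p)⟩)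
  have h7 : IsClosed (⋃ p, (fun a : Sp act T => f a) ⁻¹' closure (v p) ∩ Sp.mk ⁻¹' (U p)ᶜ) :=
    ((h5.closure.preimage_continuous hf).subset fun _ => inter_subset_left).isClosed_iUnion fun p =>
      (isClosed_closure.preimage hf).inter ((h1 p).isClosed_compl.preimage Sp.continuous_mk)
  obtain ⟨V, h8, h9⟩ := Sp.isEmbedding_val.isInducing.isOpen_iff.1 h7.isOpen_compl
  have k : ∀ a : Sp act T, a.val ∈ V ↔ ∀ p, f a ∈ closure (v p) → Sp.mk a ∈ U p := fun a =>
    (Set.ext_iff.1 h9 a).trans (by simp)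
  obtain ⟨O, a, b, c, d⟩ := exists_sat (act := act) h8
  have k' : ∀ x : Sp act T, x.val ∈ O → ∀ p, f x ∈ v p → Sp.mk x ∈ U p := fun x hx p e => by
    obtain ⟨s, hs⟩ := d _ hx
    rw [← Sp.mk_smul s x]
    exact (k (s • x)).1 hs p (subset_closure (hi s x (s • x :) rfl ▸ e))
  refine ⟨O, a, b, fun z hz => c ((k (Sp.of act z (hZT hz))).2 fun p e => h2 p _ hz
    (closure_minimal ((h6 p).trans interior_subset) (hL p).isClosed e)),
    fun x hx x' hx' => Bd.mono ?_ inter_subset_left⟩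
  by_cases e : f ⟨x, hx.1⟩ = f ⟨x', hx'.1⟩
  · obtain ⟨p, hp⟩ := mem_iUnion.1 (eq_univ_iff_forall.1 h4 (f ⟨x, hx.1⟩))
    exact h3 p (Sp.of act x hx.1) (Sp.of act x' hx'.1) (k' (Sp.of act x hx.1) hx.2 p hp)
      (k' (Sp.of act x' hx'.1) hx'.2 p (e ▸ hp :))
  · exact bd_of_ne hT hf hi e

theorem Den.smul {ρ : Aˣ → W →ₗ[ℂ] W}
    (hρ : ∀ (s : Aˣ) y, ∀ δ ∈ D, act s (y + δ) = act s y + ρ s δ ∧ ρ s δ ∈ D) (h : Den act D y)
    (s : Aˣ) : Den act D (act s y) := by
  refine map_mem_closure (cont' act s) h fun z hz => ⟨?_, fun t ht => ?_⟩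
  · obtain ⟨a, b⟩ := hρ s y _ hz.1
    rw [add_sub_cancel] at a
    rwa [a, add_sub_cancel_left]
  · have := hz.2 (s⁻¹ * (t * s)) (by
      rw [TopB.act_mul act, TopB.act_mul act, ht, TopB.act_inv act])
    rwa [inv_mul_eq_one, right_eq_mul] at this

theorem eventually_den {ρ : Aˣ → W →ₗ[ℂ] W}
    (hρ : ∀ (s : Aˣ) y, ∀ δ ∈ D, act s (y + δ) = act s y + ρ s δ ∧ ρ s δ ∈ D) (hT : Inv act T)
    (hD : ∀ y ∈ T, ∀ δ ∈ D, y + δ ∈ T) (h : Bd act T x x) (hx : x ∈ T)
    (eff : ∀ s : Aˣ, act s x = x → s ≠ 1 →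
      ∃ δ ∈ D, ∀ a, fderiv ℂ (fun b => act b x) 1 a ≠ ρ s δ - δ) :
    ∀ᶠ y in 𝓝[T] x, Den act D y := by
  have : Finite {s : Aˣ // act s x = x ∧ s ≠ 1} :=
    ((h.finite hx).subset fun s (hs : act s x = x ∧ s ≠ 1) => hs.1).to_subtype
  obtain ⟨⟨δ, hδ⟩, h1⟩ := Submodule.exists_forall_notMem_of_forall_ne_top
    (fun s : {s : Aˣ // act s x = x ∧ s ≠ 1} => (fderiv ℂ (fun b => act b x) 1).range.comap
      ((ρ s.1 - LinearMap.id) ∘ₗ D.subtype)) fun s e => by
      obtain ⟨δ, a, b⟩ := eff s.1 s.2.1 s.2.2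
      obtain ⟨c, d⟩ := Submodule.eq_top_iff'.1 e ⟨δ, a⟩
      exact b c d
  have h2 : Continuous fun s : Aˣ => ρ s δ - δ := by
    have e : (fun s : Aˣ => ρ s δ) = fun s : Aˣ => act s (0 + δ) - act s 0 :=
      funext fun s => by rw [(hρ s 0 δ hδ).1, add_sub_cancel_left]
    refine Continuous.sub (e ▸ ?_) continuous_const
    exact ((cont act).comp (Continuous.prodMk_left _)).sub
      ((cont act).comp (Continuous.prodMk_left _))
  have h3 : ∀ᶠ y in 𝓝[T] x, ∀ s : Aˣ, act s y = y → s ≠ 1 → Injective (dd act y (ρ s δ - δ)) := by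
    refine ev_of_ultra fun U s hU hs => ?_
    simp only [Classical.not_imp] at hs
    have t : Tendsto id U (𝓝 x) := hU.trans nhdsWithin_le_nhds
    obtain ⟨u, a, b⟩ := h.exists_tendsto hT h U (s := s) (y := id)
      (Eventually.filter_mono hU eventually_mem_nhdsWithin) t
      (t.congr' (hs.mono fun e a => a.1.symm))
    by_cases hu : u = 1
    · subst hu
      obtain ⟨e, c, d⟩ := (((a.prodMk_nhds t).eventually (eventually_fix (h.injective hx))).and
        hs).exists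
      exact d.2.1 (c d.1)
    · have c := (cont_dd (act := act)).continuousAt.tendsto.comp
        (t.prodMk_nhds (h2.continuousAt.tendsto.comp a))
      obtain ⟨e, d, g⟩ := ((c.eventually (ContinuousLinearMap.isOpen_injective.mem_nhds
        (inj_dd (h.injective hx) fun w e => h1 ⟨u, b, hu⟩ ⟨w, e⟩))).and hs).exists
      exact g.2.2 d
  have h4 : ∀ᶠ y in 𝓝 x, Bd act T y y :=
    (continuous_id.prodMk continuous_id).continuousAt.tendsto.eventually h.eventually
  filter_upwards [h3, mem_nhdsWithin_of_mem_nhds h4, self_mem_nhdsWithin] with y a b c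
  exact den hρ hT hD b c hδ a

theorem exists_den {ρ : Aˣ → W →ₗ[ℂ] W}
    (hρ : ∀ (s : Aˣ) y, ∀ δ ∈ D, act s (y + δ) = act s y + ρ s δ ∧ ρ s δ ∈ D) (hT : Inv act T)
    (h : ∀ x ∈ Z, ∀ᶠ y in 𝓝[T] x, Den act D y) :
    ∃ O, IsOpen O ∧ Inv act O ∧ Z ⊆ O ∧ ∀ y ∈ T ∩ O, Den act D y := by
  obtain ⟨O, a, b, c, d⟩ := exists_sat (act := act)
    (isOpen_interior (s := {y | y ∈ T → Den act D y}))
  refine ⟨O, a, b, fun z hz => c (mem_interior_iff_mem_nhds.2
    (eventually_nhdsWithin_iff.1 (h z hz))), fun y hy => ?_⟩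
  obtain ⟨s, hs⟩ := d y hy.2
  have := Den.smul hρ (interior_subset hs (hT s y hy.1)) s⁻¹
  rwa [TopB.act_inv act] at this

end Vale.Agent.P269.Holo
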