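import Vale.Agent.P269.Holo.Act

/-!
# Properness: definitions for actions of unit groups
-/

namespace Vale.Agent.P269

open Set Function Topology Filter

namespace Holo

variable {A W : Type} [NormedRing A] [NormedAddCommGroup W] [NormedSpace ℂ W]

/-- The units that move points of `S` near `x` to points near `x'` are bounded. -/
def Bd (act : A → W → W) (S : Set W) (x x' : W) : Prop :=
  ∃ C : ℝ, ∀ᶠ q in 𝓝 (x, x'), q.1 ∈ S → ∀ s : Aˣ, act s q.1 = q.2 → ‖(s : A)‖ ≤ C

/-- The action on `S` is proper. -/
def Prp (act : A → W → W) (S : Set W) : Prop := ∀ x ∈ S, ∀ x' ∈ S, Bd act S x x'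

/-- The stabiliser of `y` is trivial. -/
def Fr (act : A → W → W) (y : W) : Prop := ∀ s : Aˣ, act s y = y → s = 1

/-- `y` is a limit of points of `y + D` with trivial stabiliser. -/
def Den (act : A → W → W) (D : Submodule ℂ W) (y : W) : Prop :=
  y ∈ closure {z | z - y ∈ D ∧ Fr act z}

/-- `S` is invariant. -/
def Inv (act : A → W → W) (S : Set W) : Prop := ∀ s : Aˣ, ∀ x ∈ S, act s x ∈ S

end Holo

end Vale.Agent.P269
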