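import Vale.Agent.P269.Base.Cut
import Vale.Agent.P269.Prop.Wedge

/-!
# The factor `o` separates points; nondegeneracy; closeness modulo the torus
-/

set_option linter.unusedSectionVars false

namespace Vale.Agent.P269

open Set Function Topology Filter Base

variable {ι : Type} [Fintype ι] [DecidableEq ι] {M : ι → ℕ} {o : ι} {g : ℤ} {m : ι → ℤ}
  {C : Set (V M)} {c c' : V M}

theorem Base.Pol.congr_pt {a : ι → ℕ} {f : V M → ℂ} (h : f ∈ Pol M a)
    (e : ∀ i, a i ≠ 0 → c i = c' i) : f c = f c' := by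
  obtain ⟨μ, rfl⟩ := h
  exact congrArg μ (funext fun s => e _ s.2.pos.ne')

theorem Base.Pol.exists_lin {i : ι} {f : V M → ℂ} (h : f ∈ Pol M (Pi.single i 1)) :
    ∃ ℓ : (Fin (M i) → ℂ) →L[ℂ] ℂ, ∀ c, f c = ℓ (c i) := by
  rw [Pol_eq_span] at h
  induction h using Submodule.span_induction with
  | mem _ h =>
    obtain ⟨ℓ, rfl⟩ := h
    have : Unique (Fin ((Pi.single i 1 : ι → ℕ) i)) := by rw [Pi.single_eq_same]; infer_instance
    refine ⟨ℓ ⟨i, default⟩, fun c => ?_⟩
    simp only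
    rw [Fintype.prod_sigma, Finset.prod_eq_single i (fun j _ hj => Finset.prod_eq_one fun k _ =>
      absurd k.pos (by simp [hj])) (by simp), Fintype.prod_unique]
  | zero => exact ⟨0, fun _ => rfl⟩
  | add _ _ _ _ h h' => exact ⟨h.choose + h'.choose, fun c =>
      congrArg₂ (· + ·) (h.choose_spec c) (h'.choose_spec c)⟩
  | smul r _ _ h => exact ⟨r • h.choose, fun c => congrArg (r * ·) (h.choose_spec c)⟩

/-- The factor `o` separates the points of the curve. -/
theorem IsCurve.sep_o (h : IsCurve o g m C) (hc : c ∈ C) (hc' : c' ∈ C) {r : ℂ}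
    (e : c' o = r • c o) : Orb c c' := by
  by_contra hn
  have h0 : ∀ {a : ι → ℕ} {f : V M → ℂ}, f ∈ Pol M a → (∀ i, a i ≠ 0 → i = o) → f c = 0 →
      f c' = 0 := fun {a f} hf ha h0 => by
    rw [Pol.congr_pt hf (c' := (fun _ : ι => r) • c) fun i hi => by rw [ha i hi]; exact e, Pol.hom hf,
      h0, mul_zero]
  have h1 : ∀ i, (Pi.single o 1 : ι → ℕ) i ≠ 0 → i = o := fun i hi => by
    by_contra k
    exact hi (Pi.single_eq_of_ne k _)
  obtain ⟨ζ, hζ⟩ := exists_lin_one (h.ne_zero c hc)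
  obtain ⟨K, k1, k2⟩ := exists_proj (h.ne_zero c hc) (Pi.single o 1)
  obtain ⟨μ, -, hμ⟩ := exists_of_residual (h.nod.residual_nzd K fun x hx hy => by
    obtain ⟨γ, hγ⟩ := h.nod.exists_loc hx
    have k3 : ∀ᶠ t in 𝓝 0, γ true t o = ζ o (γ true t o) • c o :=
      ((hγ.tendsto true).eventually hy).mono fun t ht => funext fun k => by
        obtain ⟨μ, hμ⟩ := mem_Pol.1 (Pol.lin o (ContinuousLinearMap.proj k - c o k • ζ o))
        have := not_not.1 (not_exists.1 ht μ)
        rw [k2 μ (by simp [hμ, hζ]), hμ] at this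
        simpa [sub_eq_zero, mul_comm] using this
    have k4 := hasDerivAt_pi.1 (hγ.an true).differentiableAt.hasDerivAt o
    have k5 := k4.unique ((((ζ o).hasFDerivAt.comp_hasDerivAt 0 k4).smul_const
      (c o)).congr_of_eventuallyEq k3)
    have k6 := k3.self_of_nhds
    refine hγ.ne o ?_
    rw [← hγ.zero true, k6, of_li_pair (hγ.br true).imm (e := ζ o (γ true 0 o))
      (s := ζ o (deriv (γ true) 0 o)) ((congrArg _ k5).trans ((smul_comm _ _ _).trans
        (congrArg _ k6.symm))), zero_smul]) (e₀ := 0) univ_mem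
  obtain ⟨S, k3, k4, -⟩ := h.exists_val (a := Pi.single o 1) (z := ![c, c'])
    (fun e => by simpa using congrFun e o) hμ (val_mem _) (Fin.forall_fin_two.2 ⟨hc, hc'⟩)
    (Fin.forall_fin_two.2 ⟨Fin.forall_fin_two.2 ⟨fun _ => rfl, fun k => absurd k hn⟩,
      Fin.forall_fin_two.2 ⟨fun k => absurd k.symm hn, fun _ => rfl⟩⟩)
    (Fin.forall_fin_two.2 ⟨k1 μ, h0 (val_mem _) h1 (k1 μ)⟩) ![0, 1]
  exact one_ne_zero ((k4 1).symm.trans (h0 k3 (fun i hi => h1 i fun k => hi (by
    rw [Pi.add_apply, k])) (k4 0)))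

/-- Nondegeneracy. -/
theorem IsCurve.span_top (h : IsCurve o g m C) {i : ι} (hM : (M i : ℤ) = m i + 1 - g)
    {p : V M → Prop} (hp : ∀ c ∈ C, ∃ᶠ y in 𝓝[C] c, p y) :
    Submodule.span ℂ ((fun c : V M => c i) '' {c | c ∈ C ∧ p c}) = ⊤ := by
  obtain ⟨y, h1, h2, -⟩ := h.exists_ev' (a := Pi.single i 1) (fun e => by simpa using congrFun e i)
    (by rw [dg_single]; exact hM) hp
  choose μ hμ using fun k => h2 (Pi.single k 1)
  choose ℓ hℓ using fun k => Pol.exists_lin (val_mem (μ k))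
  have h3 : LinearIndependent ℂ fun k => y k i := LinearIndependent.of_pairwise_dual_eq_zero_one _
    (fun k => (ℓ k).toLinearMap) (fun k k' hk => (hℓ k _).symm.trans
      ((congrFun (hμ k) k').trans (Pi.single_eq_of_ne' hk _))) fun k =>
        (hℓ k _).symm.trans ((congrFun (hμ k) k).trans (Pi.single_eq_same _ _))
  exact top_unique ((h3.span_eq_top_of_card_eq_finrank' (by simp)).ge.trans
    (Submodule.span_mono (range_subset_iff.2 fun k => ⟨_, h1 k, rfl⟩)))

/-- Points of nearby curves that are close to `c` in the factor `o` are close to `c` modulo the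
torus. -/
theorem Base.LocFam.near_o {T P : Type*} [TopologicalSpace T] [NormedAddCommGroup P]
    [NormedSpace ℂ P] {C : T → Set (V M)} {π : T → P} {t₀ : T} (hf : LocFam o C π t₀)
    (h : IsCurve o g m (C t₀)) (hc : c ∈ C t₀) {ζ : ∀ i, (Fin (M i) → ℂ) →L[ℂ] ℂ}
    (hζ : ∀ i, ζ i (c i) = 1) {O : Set (V M)} (hO : O ∈ 𝓝 c) :
    ∀ᶠ q : T × (Fin (M o) → ℂ) in 𝓝 (t₀, c o), ∀ y ∈ C q.1, y o = q.2 →
      (∀ i, ζ i (y i) ≠ 0) ∧ (fun i => (ζ i (y i))⁻¹) • y ∈ O := by
  have h1 : ∀ s : ι → ℂ, (∀ i, s i ≠ 0) → ∀ y : V M,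
      (fun i => (ζ i ((s • y) i))⁻¹) • s • y = (fun i => (ζ i (y i))⁻¹) • y := fun s hs y =>
    funext fun i => by
      simp only [Pi.smul_apply', map_smul, smul_eq_mul, smul_smul]
      rw [mul_inv_rev, inv_mul_cancel_right₀ (hs i)]
  refine ((eventually_forall_ne (t₀ := (t₀, c o))
    (p := fun q : (T × (Fin (M o) → ℂ)) × V M => q.2 ∈ C q.1.1 →
      ζ o q.1.2 • q.2 o = ζ o (q.2 o) • q.1.2 →
        (∀ i, ζ i (q.2 i) ≠ 0) ∧ (fun i => (ζ i (q.2 i))⁻¹) • q.2 ∈ O) (fun x hx => ?_) ?_).and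
    (continuousAt_fst.eventually hf.ne_zero)).mono fun q k y hy e =>
      k.1 y (k.2 y hy) hy (by simp only [e])
  · by_cases k1 : x ∈ C t₀
    swap
    · exact ((tendsto_pm continuousAt_fst x).eventually (hf.usc x hx k1)).mono fun q k2 k3 =>
        absurd k3 k2
    by_cases k2 : x o = ζ o (x o) • c o
    · obtain ⟨s, hs, rfl⟩ := h.sep_o hc k1 k2
      have k3 : ∀ i, ζ i ((s • c) i) ≠ 0 := fun i => by simpa [Pi.smul_apply', hζ] using hs i
      have k4 : ∀ i, Continuous fun y : V M => ζ i (y i) := fun i => by fun_prop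
      have k5 := tendsto_smul (tendsto_pi_nhds.2 fun i => ((k4 i).tendsto _).inv₀ (k3 i)) tendsto_id
      rw [h1 s hs, show (fun i => (ζ i (c i))⁻¹) = 1 from funext fun i => by simp [hζ],
        one_smul] at k5
      exact (continuousAt_snd.eventually ((eventually_all.2 fun i =>
        (k4 i).continuousAt.eventually_ne (k3 i)).and (k5.eventually_mem hO))).mono fun q k _ _ => k
    · have k3 : Continuous fun q : (T × (Fin (M o) → ℂ)) × V M =>
          ζ o q.1.2 • q.2 o - ζ o (q.2 o) • q.1.2 := by fun_prop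
      exact (k3.continuousAt.eventually_ne (by simpa [hζ, sub_eq_zero] using k2)).mono
        fun q k _ e => absurd (sub_eq_zero.2 e) k
  · filter_upwards [continuousAt_fst.eventually hf.cone] with q k1 s hs y _ k2 hy e
    obtain ⟨k3, k4⟩ := k2 (k1 s hs y hy) (by
      rw [Pi.smul_apply', smul_comm, e, map_smul, smul_assoc])
    exact ⟨fun i k => k3 i (by rw [Pi.smul_apply', map_smul, k, smul_zero]), h1 s hs y ▸ k4⟩

/-- Maps that are bounded on a spanning set converge. -/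
theorem Base.bdd_of_span {E F α : Type*} [NormedAddCommGroup E] [NormedSpace ℂ E]
    [FiniteDimensional ℂ E] [NormedAddCommGroup F] [NormedSpace ℂ F] {l : Filter α}
    {A : α → E →L[ℂ] F} {S : Set E} (hS : Submodule.span ℂ S = ⊤)
    (h : ∀ v ∈ S, ∃ w : α → E, Tendsto w l (𝓝 v) ∧ ∃ B : ℝ, ∀ᶠ n in l, ‖A n (w n)‖ ≤ B) :
    ∃ B : ℝ, ∀ᶠ n in l, ‖A n‖ ≤ B := by
  have hb := Module.Basis.ofSpan_subset hS.ge
  generalize Module.Basis.ofSpan hS.ge = b at hb
  have := Module.Finite.finite_basis b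
  choose w h1 B h2 using fun j => h _ (hb (mem_range_self j))
  obtain ⟨D, hD, h3⟩ := b.exists_opNorm_le (F := F)
  obtain ⟨B₀, h4⟩ := (finite_range B).bddAbove
  refine ⟨2 * D * |B₀|, ?_⟩
  filter_upwards [eventually_all.2 h2, eventually_all.2 fun j =>
    Metric.tendsto_nhds.1 (h1 j) (1 / (2 * D)) (by positivity)] with n k1 k2
  have := h3 (u := A n) (M := |B₀| + ‖A n‖ * (1 / (2 * D))) (by positivity) fun j => by
    rw [← add_sub_cancel (w j n) (b j), map_add]
    refine (norm_add_le _ _).trans (add_le_add ((k1 j).trans ((h4 (mem_range_self j)).trans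
      (le_abs_self _))) (((A n).le_opNorm _).trans (mul_le_mul_of_nonneg_left ?_ (norm_nonneg _))))
    rw [← dist_eq_norm']
    exact (k2 j).le
  rw [mul_add, show D * (‖A n‖ * (1 / (2 * D))) = ‖A n‖ / 2 by field_simp] at this
  linarith

end Vale.Agent.P269
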