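import Vale.Agent.P269.Prop.LB
import Vale.Agent.P269.Prop.Sep
import Vale.Agent.P269.Prop.TopA
import Vale.Agent.P269.Base.Usc

/-!
# The units that move points near a solution to points near a solution are bounded
-/

set_option linter.unusedSectionVars false

namespace Vale.Agent.P269

open Set Function Topology Filter Holo Base Metric

theorem Base.lim_of_bdd {E α : Type*} [NormedAddCommGroup E] [NormedSpace ℂ E]
    [FiniteDimensional ℂ E] {U : Ultrafilter α} {f : α → E} (h : ∃ B : ℝ, ∀ᶠ n in U, ‖f n‖ ≤ B) :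
    ∃ a, Tendsto f U (𝓝 a) := by
  have := FiniteDimensional.proper ℂ E
  obtain ⟨B, h⟩ := h
  obtain ⟨a, -, ha⟩ := (isCompact_closedBall (0 : E) B).ultrafilter_le_nhds (U.map f)
    (le_principal_iff.2 (h.mono fun n hn => mem_closedBall_zero_iff.2 hn))
  exact ⟨a, ha⟩

theorem Base.bdd_of_lim {E α : Type*} [SeminormedAddCommGroup E] {l : Filter α} {f : α → E} {a : E}
    (h : Tendsto f l (𝓝 a)) : ∃ B : ℝ, ∀ᶠ n in l, ‖f n‖ ≤ B :=
  ⟨_, h.norm.eventually_le_const (lt_add_one _)⟩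

namespace Ch

variable {R J K ι ν : Type} [Fintype R] [Fintype J] [Fintype K] [Fintype ι] [DecidableEq ι]
  [Fintype ν] {ch : Ch ι J} {x x' : ch.W ν} {O O' : Set (V ch.M)} {r r' : ℝ} {γ : ℂ → V ch.M}
  {τ : ℂ → ι → ℂ} {φ : ℂ}

theorem Rl.disc (h : Rl x (γ 0) (deriv γ 0) φ) (hγ : AnalyticAt ℂ γ 0) (hτ : AnalyticAt ℂ τ 0)
    (h0 : ∀ i, τ 0 i ≠ 0) :
    Rl x (τ 0 • γ 0) (deriv (fun ζ => τ ζ • γ ζ) 0) ((∏ i, τ 0 i ^ ch.χ i) * φ) := by
  have := (h.smul h0).of_eq (v := deriv (fun ζ => τ ζ • γ ζ) 0)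
    (a := -deriv τ 0 ch.o / τ 0 ch.o) (b := 1) (by
      simp [(hasDerivAt_smul hτ.differentiableAt.hasDerivAt hγ.differentiableAt.hasDerivAt).deriv,
        Pi.smul_apply', smul_smul, div_mul_cancel₀ _ (h0 _)])
  simpa using this

theorem Disc.smul (h : Disc x O r γ) (h1 : 0 < r') (h2 : r' ≤ r)
    (hτ : ∀ ζ ∈ ball (0 : ℂ) r', AnalyticAt ℂ τ ζ ∧ (∀ i, τ ζ i ≠ 0) ∧ τ ζ • γ ζ ∈ O') :
    Disc x O' r' fun ζ => τ ζ • γ ζ :=
  have e := ball_subset_ball (x := (0 : ℂ)) h2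
  ⟨h1, fun ζ a => an_smul (hτ ζ a).1 (h.an ζ (e a)), fun ζ a => crv_smul (h.mem ζ (e a)) (hτ ζ a).2.1,
    fun ζ a => (hτ ζ a).2.2, fun ζ a b => h.ord ζ (e a) ((spc_smul (hτ ζ a).2.1).1 b),
    fun ζ a ζ' b s d => h.inj ζ (e a) ζ' (e b) ((τ ζ)⁻¹ * (s * τ ζ')) (by
      rw [mul_smul, mul_smul, ← d, inv_smul_smul' (hτ ζ a).2.1])⟩

theorem Disc.act (h : Disc x O r γ) (s : (ch.A ν)ˣ) :
    Disc (act (s : ch.A ν) x) univ r fun ζ => gV (gU s) (γ ζ) :=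
  ⟨h.pos, fun ζ a => ((gV (gU s)).analyticAt _).comp (h.an ζ a),
    fun ζ a => crv_actU s x ▸ mem_image_of_mem _ (h.mem ζ a), fun _ _ => trivial,
    fun ζ a b => h.ord ζ a ((spc_act s).1 b),
    fun ζ a ζ' b t d => h.inj ζ a ζ' b t ((gV (gU s)).injective (d.trans (gV_smul _ _).symm))⟩

theorem exists_disc {x : ch.base ν} {c : V ch.M}
    (hf : LocFam ch.o (fun y : ch.base ν => crv y.1) Subtype.val x) (hc : c ∈ crv x.1)
    (hn : ¬Spc x.1 c) : ∃ σ : ch.W ν × ℂ → V ch.M, σ (x, 0) = c ∧ AnalyticAt ℂ σ (x, 0) ∧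
      ∃ ε, ∀ᶠ y : ch.base ν in 𝓝 x, Disc y.1 univ ε (fun ζ => σ (y, ζ)) ∧
        IsBranch ch.o (crv y.1) fun ζ => σ (y, ζ) := by
  obtain ⟨σ, rfl, h⟩ := hf.smAt hc fun k => hn (.inl k)
  have k0 := continuous_subtype_val.continuousAt (x := x)
  obtain ⟨ε, h1, h2⟩ := exists_ball ((((tendsto_pm k0 0).eventually h.an.eventually_analyticAt).and
    (sm_ev hf h)).and (eventually_all.2 fun n => not_mark h.an hc fun k => hn (.inr ⟨n, k⟩)))
  obtain ⟨ε', h3, h4⟩ := exists_ball ((tendsto_pm k0 0).eventually (h.inj (crv_ne hc)))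
  refine ⟨σ, rfl, h.an, min ε ε', ?_⟩
  filter_upwards [h2, h4] with y a b
  have e : ∀ ζ ∈ ball (0 : ℂ) (min ε ε'), ‖ζ‖ < ε ∧ ‖ζ‖ < ε' := fun ζ k => by simpa using k
  refine ⟨⟨lt_min h1 h3, fun ζ k => (a ζ (e ζ k).1).1.1.comp_of_eq
    (analyticAt_const.prod analyticAt_id) rfl, fun ζ k => br_mem (β := fun w => σ (y, w))
    (a ζ (e ζ k).1).1.2.1, fun _ _ => trivial, fun ζ k => ?_, fun ζ k ζ' k' s d =>
      (b (ζ', ζ) (max_lt (e ζ' k').2 (e ζ k).2) s d).2.symm⟩, by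
        simpa using (a 0 (by simpa)).1.2.1⟩
  rintro (d | ⟨n, d⟩)
  exacts [(a ζ (e ζ k).1).1.2.2 d, (a ζ (e ζ k).1).2 n d]

theorem sub_single (s : ch.A ν) (t : ι → ℂ) {a : ι → ℕ} (ha : ∀ i ≠ ch.o, a i = 0)
    (μ : Tens ch.M a) :
    sub ((Pi.single ch.o (t ch.o • s.1 ch.o), 0) : ch.A ν) _ μ = chr a t • sub s _ μ := by
  ext v
  have := μ.map_smul_univ (fun r => t r.1) fun r => s.1 r.1 (v r)
  rw [Fintype.prod_sigma] at this
  simp only [Finset.prod_const, Finset.card_univ, Fintype.card_fin] at this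
  refine Eq.trans (congrArg μ (funext fun ⟨i, k⟩ => ?_)) this
  obtain rfl : i = ch.o := by_contra fun e => (ha i e ▸ k).elim0
  simp

theorem val_single {G : (Fin (ch.M ch.o) → ℂ) →L[ℂ] Fin (ch.M ch.o) → ℂ} {a : ι → ℕ}
    (ha : ∀ i ≠ ch.o, a i = 0) (μ : Tens ch.M a) {c c' : V ch.M} (e : c ch.o = G (c' ch.o)) :
    val (sub ((Pi.single ch.o G, 0) : ch.A ν) _ μ) c' = val μ c := by
  refine congrArg μ (funext fun ⟨i, k⟩ => ?_)
  obtain rfl : i = ch.o := by_contra fun e => (ha i e ▸ k).elim0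
  simp [e]

variable {T : Tgt R J K} {U : Ultrafilter ℕ} {y : ℕ → ch.W ν} {s : ℕ → (ch.A ν)ˣ}

/-- The units `s n` move points near the solution `x` to points near the solution `x'`. -/
structure Sq (T : Tgt R J K) (U : Ultrafilter ℕ) (y : ℕ → ch.W ν) (s : ℕ → (ch.A ν)ˣ)
    (x x' : ch.W ν) : Prop where
  mem : ∀ n, y n ∈ ch.base ν
  sol : x ∈ ch.sol ν T
  sol' : x' ∈ ch.sol ν T
  lim : Tendsto y U (𝓝 x)
  lim' : Tendsto (fun n => act (s n : ch.A ν) (y n)) U (𝓝 x')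

namespace Sq

variable (h : Sq T U y s x x')
include h

theorem symm : Sq T U (fun n => act (s n : ch.A ν) (y n)) (fun n => (s n)⁻¹) x' x :=
  ⟨fun n => act_mem_base _ (h.mem n), h.sol', h.sol, h.lim', by simpa only [act_inv_act] using h.lim⟩

theorem limB : Tendsto (fun n => (⟨y n, h.mem n⟩ : ch.base ν)) U (𝓝 ⟨x, h.sol.1⟩) :=
  tendsto_subtype_rng.2 h.lim

variable {c' : ℕ → V ch.M} {c c₀ : V ch.M} {G : (Fin (ch.M ch.o) → ℂ) →L[ℂ] Fin (ch.M ch.o) → ℂ}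

theorem exists_mv {t : ℕ → ι → ℂ} (h1 : ∀ᶠ n in U, c' n ∈ crv (y n) ∧ ∀ i, t n i ≠ 0)
    (h2 : Tendsto c' U (𝓝 c₀)) (h3 : c₀ ∈ crv x) (h4 : c ∈ crv x')
    (h5 : Tendsto (fun n => t n ch.o • (s n : ch.A ν).1 ch.o) U (𝓝 G))
    (h6 : Tendsto (fun n => t n • gV (gU (s n)) (c' n)) U (𝓝 c)) (e : c ch.o = G (c₀ ch.o)) :
    ∃ z ∈ T.cone, ∃ z' ∈ T.cone, ∃ w : ℕ → (J → ℂ) × (J → ℂ), Tendsto w U (𝓝 (z, z')) ∧
      ∀ᶠ n in U, ch.Mv (t n) (w n).1 (w n).2 := by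
  classical
  obtain ⟨u₀, a1⟩ := mem_crv.1 h3
  obtain ⟨u₁, a2⟩ := mem_crv.1 h4
  obtain ⟨z, b1, b2⟩ := h.sol.2 _ a1
  obtain ⟨z', b3, b4⟩ := h.sol'.2 _ a2
  obtain ⟨u, hu⟩ := (h1.mono fun n a => mem_crv.1 a.1).choice
  choose μ hμ using fun j => exists_val_one (a := ch.b j) a2.1
  let s' : ℕ → ch.A ν := fun n => (Pi.single ch.o (t n ch.o • (s n : ch.A ν).1 ch.o), 0)
  have k1 : Tendsto s' U (𝓝 (Pi.single ch.o G, 0)) :=
    (((continuous_single ch.o).tendsto _).comp h5).prodMk_nhds tendsto_const_nhds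
  let u' : ℕ → ∀ l, ch.E l →L[ℂ] ℂ := fun n l =>
    chr (ch.a l) (t n) • u n l ∘L Ring.inverse ((s n : ch.A ν).2.1 l)
  have k2 : ∀ᶠ n in U, (t n • gV (gU (s n)) (c' n), u' n) ∈ gr (act (s n : ch.A ν) (y n)) := by
    filter_upwards [h1, hu] with n a b
    exact gr_smul ((gr_act (s n).isUnit).1 b) a.2
  refine ⟨z, b1, z', b3, fun n => (fun j => if ∀ i ≠ ch.o, ch.b j i = 0 then
    u n (some j) ((y n).X j (sub (s' n) _ (μ j))) else z j,
      fun j => u' n (some j) ((act (s n : ch.A ν) (y n)).X j (μ j))), Tendsto.prodMk_nhds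
    (tendsto_pi_nhds.2 fun j => ?_) (tendsto_pi_nhds.2 fun j => ?_), ?_⟩
  · split_ifs with k
    · have := tendsto_u h.lim h2 hu a1 (h.sol.1.1 _) (tendsto_app (W.tendsto_X h.lim j)
        (tendsto_app (tendsto_sub k1 _) (tendsto_const_nhds (x := μ j))))
      rwa [b2, val_single k _ e, hμ, mul_one] at this
    · exact tendsto_const_nhds
  · have := tendsto_u h.lim' h6 k2 a2 (h.sol'.1.1 _) (tendsto_app (W.tendsto_X h.lim' j)
      (tendsto_const_nhds (x := μ j)))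
    rwa [b4, hμ, mul_one] at this
  · filter_upwards [h1] with n a j k
    simp only [if_pos k, s', u', sub_single _ _ k, act_X, map_smul, Cv.chr_wd a.2, smul_eq_mul,
      _root_.smul_apply, ContinuousLinearMap.comp_apply,
      Cv.inv_ap (isUnit_E (s n).isUnit _), mul_assoc]

variable (hf : ∀ x : ch.base ν, LocFam ch.o (fun y : ch.base ν => crv y.1) Subtype.val x)
include hf

theorem exists_tor {lam : ℕ → ℂ} (h1 : ∀ᶠ n in U, c' n ∈ crv (y n) ∧ lam n ≠ 0)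
    (h2 : Tendsto c' U (𝓝 c₀)) (h5 : Tendsto (fun n => lam n • (s n : ch.A ν).1 ch.o) U (𝓝 G))
    (h6 : G (c₀ ch.o) ≠ 0) : ∃ c ∈ crv x', c ch.o = G (c₀ ch.o) ∧ ∃ t : ℕ → ι → ℂ,
      (∀ n, t n ch.o = lam n) ∧ (∀ᶠ n in U, ∀ i, t n i ≠ 0) ∧
        Tendsto (fun n => t n • gV (gU (s n)) (c' n)) U (𝓝 c) := by
  let t : ℕ → ι → ℂ := fun n i =>
    if i = ch.o then lam n else (‖gV (gU (s n)) (c' n) i‖ : ℂ)⁻¹
  have k0 : ∀ n, t n ch.o = lam n := fun n => if_pos rfl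
  have k1 : ∀ᶠ n in U, ∀ i, gV (gU (s n)) (c' n) i ≠ 0 :=
    h1.mono fun n a i => (gV_ne i).2 (crv_ne a.1 i)
  have k2 : Tendsto (fun n => (t n • gV (gU (s n)) (c' n)) ch.o) U (𝓝 (G (c₀ ch.o))) := by
    simp only [Pi.smul_apply', k0]
    exact tendsto_app h5 (tendsto_pi_nhds.1 h2 _)
  have k3 : ∀ i, ∃ v ≠ 0, Tendsto (fun n => (t n • gV (gU (s n)) (c' n)) i) U (𝓝 v) := fun i => by
    rcases eq_or_ne i ch.o with rfl | e
    · exact ⟨_, h6, k2⟩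
    have a : ∀ᶠ n in U, ‖(t n • gV (gU (s n)) (c' n)) i‖ = 1 := k1.mono fun n a => by
      simp only [Pi.smul_apply', t, if_neg e, norm_smul, norm_inv, Complex.norm_real, norm_norm]
      exact inv_mul_cancel₀ (norm_ne_zero_iff.2 (a i))
    obtain ⟨v, b⟩ := lim_of_bdd ⟨1, a.mono fun n => le_of_eq⟩
    exact ⟨v, norm_ne_zero_iff.1 ((tendsto_nhds_unique_of_eventuallyEq b.norm tendsto_const_nhds
      a).trans_ne one_ne_zero), b⟩
  choose c k4 k5 using k3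
  have k6 : ∀ᶠ n in U, ∀ i, t n i ≠ 0 :=
    ((tendsto_pi_nhds.2 k5).eventually (eventually_ne k4)).mono fun n => ne_of_smul_ne
  refine ⟨c, by_contra fun hc => ?_, tendsto_nhds_unique (k5 _) k2, t, k0, k6, tendsto_pi_nhds.2 k5⟩
  obtain ⟨n, a, b, d⟩ := (((h.symm.limB.prodMk_nhds (tendsto_pi_nhds.2 k5)).eventually
    ((hf _).usc c k4 hc)).and (h1.and k6)).exists
  exact a (crv_smul ((crv_actU (s n) (y n)).ge (mem_image_of_mem _ b.1)) d)

variable (hT : ch.Tame T.cone) (hM : ∀ i, (ch.M i : ℤ) = ch.m i + 1 - ch.g)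
include hT hM

/-- The factor `o`. -/
theorem lim_o : ∃ G, Tendsto (fun n => (s n : ch.A ν).1 ch.o) U (𝓝 G) := by
  refine lim_of_bdd (by_contra fun hn => ?_)
  have h1 : Tendsto (fun n => ‖(s n : ch.A ν).1 ch.o‖) U atTop := tendsto_atTop.2 fun B =>
    (Ultrafilter.eventually_not.2 fun a => hn ⟨B, a⟩).mono fun n a => (not_le.1 a).le
  let lam : ℕ → ℂ := fun n => (‖(s n : ch.A ν).1 ch.o‖ : ℂ)⁻¹
  have h2 := h1.eventually_gt_atTop 0
  have h3 : ∀ᶠ n in U, ‖lam n • (s n : ch.A ν).1 ch.o‖ = 1 := h2.mono fun n a => by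
    simp only [lam, norm_smul, norm_inv, Complex.norm_real, norm_norm]
    exact inv_mul_cancel₀ a.ne'
  obtain ⟨G, h4⟩ := lim_of_bdd ⟨1, h3.mono fun n => le_of_eq⟩
  have h5 := h.sol.1.2.2.1
  obtain ⟨c₀, h6, h7, h8⟩ : ∃ c₀ ∈ crv x, ¬Spc x c₀ ∧ G (c₀ ch.o) ≠ 0 := by
    by_contra! k
    have k1 := h5.span_top (hM ch.o) (p := fun c => ¬Spc x c) fun c hc =>
      ((h5.nod.frequently_not_node x.p hc).and_eventually self_mem_nhdsWithin).mono fun y a => by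
        rintro (b | ⟨n, t, b⟩)
        exacts [a.1.2 b, a.1.1 n (Orb.of_smul (crv_ne a.2) b)]
    have k2 : G = 0 := ContinuousLinearMap.coe_injective (LinearMap.ext_on k1 (by
      rintro _ ⟨c, a, rfl⟩
      exact k c a.1 a.2))
    have := tendsto_nhds_unique_of_eventuallyEq h4.norm tendsto_const_nhds h3
    simp [k2] at this
  obtain ⟨σ, rfl, a1, ε, a2⟩ := exists_disc (hf ⟨x, h.sol.1⟩) h6 h7
  have a3 := h.limB.eventually a2
  have a4 : Tendsto (fun q : ℕ × ℂ => σ (y q.1, q.2)) (U ×ˢ 𝓝 0) (𝓝 (σ (x, 0))) :=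
    a1.continuousAt.tendsto.comp ((h.lim.comp tendsto_fst).prodMk_nhds tendsto_snd)
  have a5 : Tendsto (fun n => σ (y n, 0)) U (𝓝 (σ (x, 0))) :=
    a4.comp (tendsto_id.prodMk tendsto_const_nhds)
  have a6 : ∀ᶠ n in U, σ (y n, 0) ∈ crv (y n) := a3.mono fun n a => a.2.mem.self_of_nhds
  obtain ⟨c, b1, b2, t, b3, b4, b5⟩ := h.exists_tor hf (lam := lam) (a6.and (h2.mono fun n a => by
    simpa [lam] using a.ne')) a5 h4 h8
  obtain ⟨d, d1, d2⟩ := hT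
  obtain ⟨z, z1, z', z2, w, z3, z4⟩ := h.exists_mv (a6.and b4) a5 h6 b1
    (by simpa only [b3] using h4) b5 b2
  obtain ⟨C, d3⟩ := d2 z z1 z' z2
  obtain ⟨ζ, e1⟩ := exists_lin_one (crv_ne b1)
  obtain ⟨O, e2, m, e3, e4⟩ := exists_lb (hf ⟨x', h.sol'.1⟩) b1
  obtain ⟨P, e5, r, e6, e7⟩ := eventually_prod_nhds_iff.1 (((h.symm.limB.comp tendsto_fst).prodMk_nhds
    (b2 ▸ tendsto_app (h4.comp tendsto_fst) (tendsto_pi_nhds.1 a4 ch.o))).eventually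
      ((hf ⟨x', h.sol'.1⟩).near_o h.sol'.1.2.2.1 b1 e1 e2))
  have f1 := a2.self_of_nhds
  obtain ⟨φ₀, -, f2⟩ := exists_rl h.sol.1 f1.2 h7
  obtain ⟨φ, f3⟩ := (a3.mono fun n a => (exists_rl (h.mem n) a.2
    (a.1.ord 0 (mem_ball_self a.1.pos))).imp fun _ a => a.2).choice
  have f4 := f2.tendsto h6 f1.2.imm (h.sol.1.1 _) h.lim a5 ((an_deriv_snd a1).continuousAt.tendsto.comp
    (h.lim.prodMk_nhds tendsto_const_nhds)) (a6.and f3)
  let τ : ℕ → ℂ → ι → ℂ := fun n w i => (ζ i ((t n • gV (gU (s n)) (σ (y n, w))) i))⁻¹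
  have g1 : Tendsto (fun n => ∏ i, τ n 0 i ^ ch.χ i) U (𝓝 (∏ i, (ζ i (c i))⁻¹ ^ ch.χ i)) :=
    tendsto_finsetProd _ fun i _ => ((((ζ i).continuous.tendsto _).comp
      (tendsto_pi_nhds.1 b5 i)).inv₀ (by simp [e1])).zpow₀ _ (.inl (by simp [e1]))
  have g2 : Tendsto (fun n => ∏ i, t n i ^ ch.χ i) U (𝓝 0) := by
    have k1 : Tendsto (fun n => (∑ i, ch.χ i * d i) * -Real.log ‖(s n : ch.A ν).1 ch.o‖ +
        ∑ i, |(ch.χ i : ℝ)| * C) U atBot :=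
      tendsto_atBot_add_const_right _ _ ((tendsto_neg_atTop_atBot.comp
        (Real.tendsto_log_atTop.comp h1)).const_mul_atBot d1)
    refine squeeze_zero_norm' ?_ (Real.tendsto_exp_atBot.comp k1)
    filter_upwards [b4, z4, z3.eventually d3] with n k2 k3 k4
    have k5 : ∀ i, 0 < ‖t n i‖ := fun i => norm_pos_iff.2 (k2 i)
    rw [comp_apply, ← Real.log_le_iff_le_exp (norm_pos_iff.2 (Finset.prod_ne_zero_iff.2 fun i _ =>
      zpow_ne_zero _ (k2 i))), norm_prod, Real.log_prod fun i _ => norm_ne_zero_iff.2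
        (zpow_ne_zero _ (k2 i)), Finset.sum_mul, ← Finset.sum_add_distrib]
    refine Finset.sum_le_sum fun i _ => ?_
    have k6 := k4 _ k2 k3 i
    rw [b3, show Real.log ‖lam n‖ = -Real.log ‖(s n : ch.A ν).1 ch.o‖ by simp [lam]] at k6
    rw [norm_zpow, Real.log_zpow, ← sub_le_iff_le_add', mul_assoc, ← mul_sub]
    exact (le_abs_self _).trans ((abs_mul _ _).trans_le (by gcongr))
  have g3 := (g1.mul (g2.mul f4)).norm
  rw [zero_mul, mul_zero, norm_zero] at g3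
  have g4 := lt_min f1.1.pos e6
  refine (ge_of_tendsto g3 ?_).not_gt (mul_pos e3 (pow_pos g4 ch.k))
  filter_upwards [a3, b4, e5, f3, h.symm.limB.eventually e4] with n k1 k2 k3 k4 k5
  have k6 := (k1.1.act (s n)).smul (τ := fun _ => t n) (O' := univ) k1.1.pos le_rfl
    fun _ _ => ⟨analyticAt_const, k2, trivial⟩
  have k7 : ∀ w ∈ ball (0 : ℂ) (min ε r), AnalyticAt ℂ (τ n) w ∧ (∀ i, τ n w i ≠ 0) ∧
      τ n w • t n • gV (gU (s n)) (σ (y n, w)) ∈ O := fun w k => by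
    have k8 := ball_subset_ball (min_le_left _ _) k
    obtain ⟨k9, k10⟩ := e7 k3 (ball_subset_ball (min_le_right _ _) k) _ (k6.mem w k8)
      (by rw [Pi.smul_apply', b3]; rfl)
    exact ⟨AnalyticAt.pi fun i => (((ζ i).analyticAt _).comp
      (analyticAt_pi_iff.1 (k6.an w k8) i)).inv (k9 i), fun i => inv_ne_zero (k9 i), k10⟩
  have k8 := k7 0 (mem_ball_self g4)
  have k9 := mem_ball_self (x := (0 : ℂ)) k1.1.pos
  exact k5 _ _ _ (k6.smul g4 (min_le_left _ _) k7) (Rl.disc (Rl.disc (τ := fun _ => t n)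
    (γ := fun w => gV (gU (s n)) (σ (y n, w))) (by rw [deriv_gV]; exact (rel_act _).2 k4)
      ((k1.1.act (s n)).an 0 k9) analyticAt_const k2) (k6.an 0 k9) k8.1 k8.2.1)

/-- All factors. -/
theorem lim_g : ∃ G, Tendsto (fun n => (s n : ch.A ν).1) U (𝓝 G) := by
  obtain ⟨G, h1⟩ := h.lim_o hf hT hM
  obtain ⟨G', h2⟩ := h.symm.lim_o hf hT hM
  have : ∀ i, ∃ G, Tendsto (fun n => (s n : ch.A ν).1 i) U (𝓝 G) := fun i => by
    refine lim_of_bdd (bdd_of_span (h.sol.1.2.2.1.span_top (hM i) (p := fun _ => True) fun c hc =>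
      (h.sol.1.2.2.1.nod.frequently_not_node x.p hc).mono fun _ _ => trivial) ?_)
    rintro _ ⟨c₀, ⟨h3, -⟩, rfl⟩
    obtain ⟨c', a1, a2⟩ := (hf ⟨x, h.sol.1⟩).exists_approx h3
    have a3 := a1.comp h.limB
    have a4 := h.limB.eventually a2
    have a5 : G' (G (c₀ ch.o)) = c₀ ch.o := tendsto_nhds_unique (tendsto_app h2 (tendsto_app h1
      tendsto_const_nhds)) (tendsto_const_nhds.congr fun n => ((gU (s n) _).symm_apply_apply _).symm)
    obtain ⟨c, b1, b2, t, b3, b4, b5⟩ := h.exists_tor hf (lam := 1) (G := G) (a4.mono fun n a =>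
      ⟨a, one_ne_zero⟩) a3 (by simpa using h1) fun e => crv_ne h3 _ (by rw [← a5, e, map_zero])
    obtain ⟨d, -, d2⟩ := hT
    obtain ⟨z, z1, z', z2, w, z3, z4⟩ := h.exists_mv (G := G) (a4.and b4) a3 h3 b1
      (by simpa [b3] using h1) b5 b2
    obtain ⟨C, d3⟩ := d2 z z1 z' z2
    obtain ⟨B, d4⟩ := bdd_of_lim (tendsto_pi_nhds.1 b5 i)
    refine ⟨_, tendsto_pi_nhds.1 a3 i, Real.exp C * B, ?_⟩
    filter_upwards [b4, z4, z3.eventually d3, d4] with n k2 k3 k4 k5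
    have k6 := (abs_le.1 (k4 _ k2 k3 i)).1
    rw [b3, Pi.one_apply, norm_one, Real.log_one, mul_zero, sub_zero,
      Real.le_log_iff_exp_le (norm_pos_iff.2 (k2 i)), Real.exp_neg] at k6
    rw [Pi.smul_apply', norm_smul] at k5
    rw [← inv_mul_le_iff₀ (Real.exp_pos C)]
    exact (mul_le_mul_of_nonneg_right k6 (norm_nonneg _)).trans k5
  choose G hG using this
  exact ⟨G, tendsto_pi_nhds.2 hG⟩

theorem lim_s : ∃ a, Tendsto (fun n => (s n : ch.A ν)) U (𝓝 a) := by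
  obtain ⟨G, h1⟩ := h.lim_g hf hT hM
  obtain ⟨G', h2⟩ := h.symm.lim_g hf hT hM
  have h3 : ∀ l, ∃ e, Tendsto (fun n => (s n : ch.A ν).2.1 l) U (𝓝 e) := fun l => by
    refine lim_of_bdd (bdd_of_span Submodule.span_univ fun v _ => ?_)
    obtain ⟨μ, rfl⟩ := h.sol.1.1 l v
    refine ⟨_, tendsto_app (W.tendsto_Q h.lim l) tendsto_const_nhds, bdd_of_lim ((tendsto_app
      (W.tendsto_Q h.lim' l) (tendsto_app (tendsto_sub (ν := ν) (s₀ := (G', 0)) (h2.prodMk_nhds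
        tendsto_const_nhds) _) (tendsto_const_nhds (x := μ)))).congr fun n => ?_)⟩
    change (s n : ch.A ν).2.1 l ((y n).Q l (sub (s n : ch.A ν) _ (sub (↑(s n)⁻¹ : ch.A ν) _ μ))) = _
    rw [← sub_mul, Units.inv_mul, sub_one]
  have h4 : ∀ q i, ∃ e, Tendsto (fun n => (s n : ch.A ν).2.2 q i) U (𝓝 e) := fun q i => by
    obtain ⟨ζ, a1⟩ := exists_lin_one (crv_ne (h.sol.1.2.2.2.1 q).1)
    have a2 := ((ζ i).continuous.tendsto _).comp (tendsto_pi_nhds.1 (W.tendsto_p h.lim q) i)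
    have a3 := ((ζ i).continuous.tendsto _).comp (tendsto_app (tendsto_pi_nhds.1 h2 i)
      (tendsto_pi_nhds.1 (W.tendsto_p h.lim' q) i))
    rw [a1] at a2
    refine ⟨_, (a3.div a2 one_ne_zero).congr' ((a2.eventually_ne one_ne_zero).mono fun n a => ?_)⟩
    refine (div_eq_iff a).2 ?_
    change ζ i ((gU (s n) i).symm (_ • gU (s n) i _)) = _
    rw [map_smul, map_smul, ContinuousLinearEquiv.symm_apply_apply]
    rfl
  choose e h3 using h3
  choose t h4 using h4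
  exact ⟨(G, e, t), h1.prodMk_nhds ((tendsto_pi_nhds.2 h3).prodMk_nhds
    (tendsto_pi_nhds.2 fun q => tendsto_pi_nhds.2 (h4 q)))⟩

end Sq

/-- **Properness at the solutions.** -/
theorem bd {l : Option J} (hl : ∀ i, 4 ≤ ch.a l i) (hM : ∀ i, (ch.M i : ℤ) = ch.m i + 1 - ch.g)
    (hT : ch.Tame T.cone) (hx : x ∈ ch.sol ν T) (hx' : x' ∈ ch.sol ν T) :
    Bd act (ch.base ν) x x' :=
  bd_of_ultra fun _ _ _ h1 h2 h3 =>
    let ⟨_, h⟩ := Sq.lim_s ⟨h1, hx, hx', h2, h3⟩ (locFam_base hl) hT hM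
    bdd_of_lim h

end Ch

end Vale.Agent.P269
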