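import Vale.Agent.P269.Prop.Defs
import Vale.Agent.P269.Base.Act
import Vale.Agent.P269.Base.LF
import Vale.Agent.P269.Base.OpenA

/-!
# The coefficient of `Ξ` along tangent vectors
-/

set_option linter.unusedSectionVars false

namespace Vale.Agent.P269

open Set Function Topology Filter Holo Base

namespace Base

variable {A B α : Type*} [NormedAddCommGroup A] [NormedSpace ℂ A] [NormedAddCommGroup B]
  [NormedSpace ℂ B] {l : Filter α}

theorem tendsto_app {Q : α → A →L[ℂ] B} {Q₀ : A →L[ℂ] B} {m : α → A} {m₀ : A}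
    (hQ : Tendsto Q l (𝓝 Q₀)) (hm : Tendsto m l (𝓝 m₀)) :
    Tendsto (fun n => Q n (m n)) l (𝓝 (Q₀ m₀)) :=
  (isBoundedBilinearMap_apply.continuous.tendsto (Q₀, m₀)).comp (hQ.prodMk_nhds hm)

theorem tendsto_lift [FiniteDimensional ℂ B] {Q : α → A →L[ℂ] B} {Q₀ : A →L[ℂ] B}
    (hQ : Tendsto Q l (𝓝 Q₀)) (hs : Surjective Q₀) {e : α → B} {e₀ : B} (he : Tendsto e l (𝓝 e₀)) :
    ∃ (m : α → A) (m₀ : A), Tendsto m l (𝓝 m₀) ∧ Q₀ m₀ = e₀ ∧ ∀ᶠ n in l, Q n (m n) = e n := by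
  obtain ⟨S, hS⟩ := exists_rightInv hs
  have h1 : Bijective (Q₀.comp S) := ⟨fun a b e => by simpa [hS] using e, fun y => ⟨y, hS y⟩⟩
  have h2 : ContinuousAt (fun q : A →L[ℂ] B => q.comp S) Q₀ :=
    continuousAt_id.clm_comp continuousAt_const
  refine ⟨fun n => S (((Q n).comp S).inverse (e n)), _, (S.continuous.tendsto _).comp (tendsto_app
    ((analyticAt_clm_inverse h1).continuousAt.tendsto.comp (h2.tendsto.comp hQ)) he),
    (isInvertible_of_bijective h1).self_apply_inverse e₀, ?_⟩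
  filter_upwards [hQ.eventually (eventually_bijective h2 h1)] with n hn
  exact (isInvertible_of_bijective hn).self_apply_inverse _

end Base

namespace Ch

variable {J ι ν : Type} [Fintype J] [Fintype ι] [DecidableEq ι] [Fintype ν] {ch : Ch ι J}
  {x : ch.W ν} {c v v' : V ch.M} {φ φ' : ℂ} {α : Type*} {l : Filter α} {y : α → ch.W ν}

theorem W.tendsto_Q (hy : Tendsto y l (𝓝 x)) (i : Option J) :
    Tendsto (fun n => (y n).Q i) l (𝓝 (x.Q i)) :=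
  ((W.QL (ch := ch) (ν := ν) i).continuous.tendsto x).comp hy

theorem W.tendsto_p (hy : Tendsto y l (𝓝 x)) (n : ν) :
    Tendsto (fun k => (y k).p n) l (𝓝 (x.p n)) :=
  ((W.pL (ch := ch) n).continuous.tendsto x).comp hy

theorem W.tendsto_Ξ (hy : Tendsto y l (𝓝 x)) : Tendsto (fun n => (y n).Ξ) l (𝓝 x.Ξ) :=
  ((W.XiL (ch := ch) (ν := ν)).continuous.tendsto x).comp hy

theorem W.tendsto_X (hy : Tendsto y l (𝓝 x)) (j : J) :
    Tendsto (fun n => (y n).X j) l (𝓝 (x.X j)) :=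
  ((W.XL (ch := ch) (ν := ν) j).continuous.tendsto x).comp hy

theorem tendsto_sub {s : α → ch.A ν} {s₀ : ch.A ν} (hs : Tendsto s l (𝓝 s₀)) {σ : Type} [Fintype σ]
    (τ : σ → ι) : Tendsto (fun n => sub (s n) τ) l (𝓝 (sub s₀ τ)) :=
  (an_sub analyticAt_id τ).continuousAt.tendsto.comp hs

theorem tendsto_val₂ {M a : ι → ℕ} {μ : α → Tens M a} {μ₀ : Tens M a} {z : α → V M} {c : V M}
    (hμ : Tendsto μ l (𝓝 μ₀)) (hz : Tendsto z l (𝓝 c)) :
    Tendsto (fun n => val (μ n) (z n)) l (𝓝 (val μ₀ c)) :=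
  (continuous_val₂.tendsto (μ₀, c)).comp (hμ.prodMk_nhds hz)

/-- The evaluations depend continuously on the point. -/
theorem tendsto_u (hy : Tendsto y l (𝓝 x)) {z : α → V ch.M} (hz : Tendsto z l (𝓝 c))
    {u : α → ∀ i, ch.E i →L[ℂ] ℂ} (hu : ∀ᶠ n in l, (z n, u n) ∈ gr (y n))
    {u₀ : ∀ i, ch.E i →L[ℂ] ℂ} (h0 : (c, u₀) ∈ gr x) {i : Option J} (hQ : Surjective (x.Q i))
    {e : α → ch.E i} {e₀ : ch.E i} (he : Tendsto e l (𝓝 e₀)) :
    Tendsto (fun n => u n i (e n)) l (𝓝 (u₀ i e₀)) := by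
  obtain ⟨m, m₀, h1, rfl, h2⟩ := tendsto_lift (W.tendsto_Q hy i) hQ he
  rw [h0.2 i m₀]
  refine (tendsto_val₂ h1 hz).congr' ?_
  filter_upwards [hu, h2] with n h3 h4
  rw [← h4]
  exact (h3.2 i _).symm

theorem chr_χ {t : ι → ℂ} (ht : ∀ i, t i ≠ 0) :
    chr (ch.a none) t = (∏ i, t i ^ ch.χ i) * (chr ch.bω t * (t ch.o * t ch.o) ^ ch.k) := by
  rw [← Cv.Xi.prod_bo, ← Finset.prod_mul_distrib, chr]
  refine Finset.prod_congr rfl fun i _ => ?_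
  rw [← zpow_add₀ (ht i), ← zpow_natCast, Ch.χ]
  congr 1
  ring

variable (x c v φ) in
/-- At `c` the tensor `Ξ` is `φ (c ∧ v)^k`. -/
def Rl : Prop := ∀ u, (c, u) ∈ gr x → ∀ μ, u none (x.Ξ μ) = φ * wedge μ c v

theorem Rl.unique (h : Rl x c v φ) (h' : Rl x c v φ') (hc : c ∈ crv x)
    (li : LinearIndependent ℂ ![c ch.o, v ch.o]) : φ = φ' := by
  obtain ⟨u, hu⟩ := mem_crv.1 hc
  obtain ⟨μ, hμ⟩ := exists_wedge_ne hu.1 li
  exact mul_right_cancel₀ hμ ((h u hu μ).symm.trans (h' u hu μ))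

theorem Rl.of_eq (h : Rl x c v' φ) {a b : ℂ} (e : v' ch.o = a • c ch.o + b • v ch.o) :
    Rl x c v (φ * b ^ ch.k) := fun u hu μ => by
  rw [h u hu μ, wedge_of_eq μ c v v' e, mul_assoc]

theorem Rl.smul (h : Rl x c v φ) {s : ι → ℂ} (hs : ∀ i, s i ≠ 0) :
    Rl x (s • c) (s • v) ((∏ i, s i ^ ch.χ i) * φ) := fun u hu μ => by
  have h1 := gr_smul hu (s := s⁻¹) fun i => inv_ne_zero (hs i)
  rw [inv_smul_smul' hs] at h1
  have h2 : chr (ch.a none) s⁻¹ * u none (x.Ξ μ) = _ := h _ h1 μ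
  have h3 : chr (ch.a none) s * chr (ch.a none) s⁻¹ = 1 := by
    rw [← chr_mul, show s * s⁻¹ = 1 from funext fun i => mul_inv_cancel₀ (hs i), chr_one]
  rw [wedge_smul μ s c v _ (a := 0) (b := s ch.o) (by simp [Pi.smul_apply']),
    ← one_mul (u none _), ← h3, mul_assoc, h2, chr_χ hs]
  ring

theorem rel_act (s : (ch.A ν)ˣ) :
    Rl (act (s : ch.A ν) x) (gV (gU s) c) (gV (gU s) v) φ ↔ Rl x c v φ := by
  constructor
  · intro h w hw μ
    obtain ⟨μ, rfl⟩ := (sub_bijective s _).2 μ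
    rw [wedge_sub]
    refine Eq.trans ?_ (h _ ((gr_act s.isUnit).1 hw) μ)
    exact congrArg (w none) (Cv.inv_ap (isUnit_E s.isUnit none) _).symm
  · intro h w hw μ
    exact (h _ ((gr_act_iff s).1 hw) (sub (s : ch.A ν) _ μ)).trans (by rw [wedge_sub]; rfl)

open Classical in
theorem Lead.rel {γ : ℂ → V ch.M} {ρ : ℂ} (h : Lead x γ ρ) : ∃ f : ℂ → ℂ, AnalyticAt ℂ f 0 ∧
    f 0 = ρ ∧ ∀ᶠ t in 𝓝 0, Rl x (γ t) (deriv γ t) (f t * (if Spc x (γ 0) then t else 1) ^ ch.k) := by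
  obtain ⟨f, h1, h2, h3⟩ := h
  refine ⟨f, h1, h2, h3.mono fun t ht u hu μ => (ht u hu μ).trans ?_⟩
  congr

theorem exists_rl (hx : x ∈ ch.base ν) {γ : ℂ → V ch.M} (hγ : IsBranch ch.o (crv x) γ)
    (hn : ¬Spc x (γ 0)) : ∃ φ ≠ 0, Rl x (γ 0) (deriv γ 0) φ := by
  obtain ⟨ρ, h1, h2⟩ := hx.2.2.2.2.2.1 γ hγ
  obtain ⟨f, -, rfl, h3⟩ := h2.rel
  exact ⟨_, h1, by simpa [hn] using h3.self_of_nhds⟩

/-- The coefficient depends continuously on the data. -/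
theorem Rl.tendsto (h : Rl x c v φ) (hc : c ∈ crv x) (li : LinearIndependent ℂ ![c ch.o, v ch.o])
    (hQ : Surjective (x.Q none)) (hy : Tendsto y l (𝓝 x)) {z w : α → V ch.M} {f : α → ℂ}
    (hz : Tendsto z l (𝓝 c)) (hw : Tendsto w l (𝓝 v))
    (hf : ∀ᶠ n in l, z n ∈ crv (y n) ∧ Rl (y n) (z n) (w n) (f n)) : Tendsto f l (𝓝 φ) := by
  classical
  obtain ⟨u₀, h0⟩ := mem_crv.1 hc
  obtain ⟨μ, hμ⟩ := exists_wedge_ne h0.1 li
  have : ∀ n, ∃ u, z n ∈ crv (y n) → (z n, u) ∈ gr (y n) := fun n => by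
    by_cases hn : z n ∈ crv (y n)
    · exact (mem_crv.1 hn).imp fun _ h _ => h
    · exact ⟨u₀, fun h => absurd h hn⟩
  choose u hu using this
  have h1 := tendsto_wedge (tendsto_const_nhds (x := μ)) hz hw
  have h2 := (tendsto_u hy hz (hf.mono fun n hn => hu n hn.1) h0 hQ
    (tendsto_app (W.tendsto_Ξ hy) (tendsto_const_nhds (x := μ)))).div h1 hμ
  rw [h u₀ h0 μ, mul_div_cancel_right₀ _ hμ] at h2
  refine h2.congr' ?_
  filter_upwards [hf, h1.eventually_ne hμ] with n h3 h4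
  rw [Pi.div_apply, h3.2 _ (hu n h3.1) μ, mul_div_cancel_right₀ _ h4]

end Ch

end Vale.Agent.P269
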