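import Vale.Agent.P269.Pt.Fld
import Vale.Agent.P269.Prop.Bd

/-!
# Properness: definitions
-/

namespace Vale.Agent.P269

open Set Function Topology Filter

namespace Ch

variable {J ι : Type} [Fintype ι] [DecidableEq ι] (ch : Ch ι J)

/-- `t` moves `y` to `y'`, as seen by the fields that are tested in the factor `o` only. -/
def Mv (t : ι → ℂ) (y y' : J → ℂ) : Prop :=
  ∀ j, (∀ i ≠ ch.o, ch.b j i = 0) → y' j = (∏ i, t i ^ ch.wd j i) * y j

/-- The torus acts properly on `Y` modulo a one parameter subgroup `d` on which the character of `Ξ`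
is positive. -/
def Tame (Y : Set (J → ℂ)) : Prop :=
  ∃ d : ι → ℝ, 0 < ∑ i, ch.χ i * d i ∧ ∀ y ∈ Y, ∀ y' ∈ Y, ∃ C : ℝ, ∀ᶠ q in 𝓝 (y, y'),
    ∀ t : ι → ℂ, (∀ i, t i ≠ 0) → ch.Mv t q.1 q.2 →
      ∀ i, |Real.log ‖t i‖ - d i * Real.log ‖t ch.o‖| ≤ C

/-- The kernel of the character of `Ξ` acts freely on `Y`. -/
def Free (Y : Set (J → ℂ)) : Prop :=
  ∀ y ∈ Y, ∀ t : ι → ℂ, (∀ i, t i ≠ 0) → (∀ j, (∏ i, t i ^ ch.wd j i) * y j = y j) →
    ∏ i, t i ^ ch.χ i = 1 → t = 1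

end Ch

end Vale.Agent.P269
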