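import Vale.Agent.P269.Prop.Core
import Vale.Agent.P269.Gen.Act
import Vale.Agent.P269.Pt.Std

/-!
# Stabilisers act effectively on the fields; the standard charts are tame and free
-/

set_option linter.unusedSectionVars false

namespace Vale.Agent.P269

open Set Function Topology Filter Holo Base Metric

theorem Base.exists_seq_not {X : Type*} [TopologicalSpace X] [FirstCountableTopology X] {x : X}
    {P : ℝ → X → Prop} (h : ¬∃ C, ∀ᶠ q in 𝓝 x, P C q) :
    ∃ u : ℕ → X, Tendsto u atTop (𝓝 x) ∧ ∀ n : ℕ, ¬P n (u n) := by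
  obtain ⟨V, hV⟩ := (𝓝 x).exists_antitone_basis
  have h1 : ∀ n : ℕ, ∃ p ∈ V n, ¬P n p := fun n => by_contra fun h2 =>
    h ⟨n, mem_of_superset (hV.1.mem_of_mem trivial) fun p hp => by_contra fun h3 => h2 ⟨p, hp, h3⟩⟩
  choose p hp h2 using h1
  exact ⟨p, hV.tendsto hp, h2⟩

theorem Holo.bd_of_seq {A W : Type} [NormedRing A] [NormedAddCommGroup W] {act : A → W → W}
    {T : Set W} {x x' : W} (h : ∀ (y : ℕ → W) (s : ℕ → Aˣ), (∀ n, y n ∈ T) →
      Tendsto y atTop (𝓝 x) → Tendsto (fun n => act (s n) (y n)) atTop (𝓝 x') →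
        ∃ C : ℝ, ∀ᶠ n in atTop, ‖(s n : A)‖ ≤ C) : Bd act T x x' := by
  by_contra hn
  obtain ⟨p, h1, h2⟩ := exists_seq_not hn
  push Not at h2
  choose h2 s h3 h4 using h2
  obtain ⟨C, hC⟩ := h (fun n => (p n).1) s h2 (continuousAt_fst.tendsto.comp h1)
    ((continuousAt_snd.tendsto.comp h1).congr fun n => (h3 n).symm)
  obtain ⟨n, h5, h6⟩ := (hC.and (tendsto_natCast_atTop_atTop.eventually_ge_atTop C)).exists
  exact (h5.trans h6).not_gt (h4 n)

theorem Base.prop_of_val {ι : Type} [Fintype ι] {M a : ι → ℕ} {o : ι} (ha : a o ≠ 0) {c c' : V M}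
    (hc : c o ≠ 0) (hc' : ∀ i, c' i ≠ 0) (h : ∀ μ : Tens M a, val μ c = 0 → val μ c' = 0) :
    ∃ r : ℂ, c' o = r • c o := by
  classical
  obtain ⟨ζ, h1⟩ := exists_lin_one hc'
  obtain ⟨η, h2⟩ := SeparatingDual.exists_eq_one (R := ℂ) hc
  refine ⟨η (c' o), funext fun k => ?_⟩
  let s₀ : Σ i, Fin (a i) := ⟨o, ⟨0, Nat.pos_of_ne_zero ha⟩⟩
  obtain ⟨μ, hμ⟩ := mem_Pol.1 (prod_lin_mem (update (fun s => ζ s.1) s₀
    (ContinuousLinearMap.proj k - c o k • η)))
  have h3 := h μ (by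
    rw [hμ]
    exact Finset.prod_eq_zero (Finset.mem_univ s₀) (by simp [s₀, h2]))
  rw [hμ] at h3
  obtain ⟨s, -, h4⟩ := Finset.prod_eq_zero_iff.1 h3
  rcases eq_or_ne s s₀ with rfl | e
  · simpa [s₀, sub_eq_zero, mul_comm] using h4
  · simp [update_of_ne e, h1] at h4

namespace Ch

variable {R J K ι ν : Type} [Fintype R] [Fintype J] [Fintype K] [Fintype ι] [DecidableEq ι]
  [Fintype ν] {ch : Ch ι J} {x : ch.W ν} {T : Tgt R J K} {s : (ch.A ν)ˣ}

theorem freq_not_spc (hx : x ∈ ch.base ν) : ∀ c ∈ crv x, ∃ᶠ y in 𝓝[crv x] c, ¬Spc x y :=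
  fun _ hc => ((hx.2.2.1.nod.frequently_not_node x.p hc).and_eventually self_mem_nhdsWithin).mono
    fun y a => by
      rintro (b | ⟨n, t, b⟩)
      exacts [a.1.2 b, a.1.1 n (Orb.of_smul (crv_ne a.2) b)]

theorem M_eq_of (h : ∀ i, ch.M i = (ch.m i + 1 - ch.g).toNat) (hx : x ∈ ch.base ν) (i : ι) :
    (ch.M i : ℤ) = ch.m i + 1 - ch.g := by
  have := hx.2.2.1.finrank_Hs (a := Pi.single i 1) (by simp)
  rw [dg_single] at this
  rw [h]
  omega

/-- An automorphism of a solution that fixes the points of the curve is trivial. -/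
theorem eq_one (hx : x ∈ ch.sol ν T) (hF : ch.Free T.cone)
    (hM : ∀ i, (ch.M i : ℤ) = ch.m i + 1 - ch.g) (hs : act (s : ch.A ν) x = x)
    (ho : ∀ c ∈ crv x, ∃ r : ℂ, gV (gU s) c ch.o = r • c ch.o) : s = 1 := by
  have h0 := hx.1.2.2.1
  have h1 : ∀ c ∈ crv x, gV (gU s) c ∈ crv x := fun c hc =>
    hs ▸ (crv_actU s x).ge (mem_image_of_mem _ hc)
  have h3 : ∀ c ∈ crv x, ¬Spc x c → gV (gU s) c = c := fun c hc hn => by
    obtain ⟨γ, hγ⟩ := h0.nod.exists_loc hc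
    obtain rfl := hγ.zero true
    have a1 := hγ.br true
    generalize γ true = β at *
    have a2 := a1.map' h1
    obtain ⟨ζ, a3⟩ := exists_lin_one (crv_ne hc)
    have a4 : ∀ i, AnalyticAt ℂ (fun z => ζ i (β z i)) 0 := fun i =>
      ((ζ i).analyticAt _).comp (analyticAt_pi_iff.1 a1.holo i)
    let τ : ℂ → ι → ℂ := fun z i => ζ i (gV (gU s) (β z) i) / ζ i (β z i)
    have a5 : AnalyticAt ℂ τ 0 := AnalyticAt.pi fun i => (((ζ i).analyticAt _).comp
      (analyticAt_pi_iff.1 a2.holo i)).div (a4 i) (by simp [a3])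
    have a6 : (fun z => gV (gU s) (β z)) =ᶠ[𝓝 0] fun z => τ z • β z := by
      filter_upwards [a1.mem, eventually_all.2 fun i => (a4 i).continuousAt.eventually_ne
        (y := 0) (by simp [a3])] with z b1 b2
      obtain ⟨r, b3⟩ := ho _ b1
      obtain ⟨t, -, b4⟩ := h0.sep_o b1 (h1 _ b1) b3
      refine b4.trans (congrArg (· • _) (funext fun i => ?_))
      simp only [τ, b4, Pi.smul_apply', map_smul, smul_eq_mul, mul_div_cancel_right₀ _ (b2 i)]
    have a7 : gV (gU s) (β 0) = τ 0 • β 0 := a6.self_of_nhds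
    have a8 := ne_of_smul_ne (a7 ▸ crv_ne (h1 _ hc))
    obtain ⟨φ, b1, b2⟩ := exists_rl hx.1 a1 hn
    have b3 := b2.disc a1.holo a5 a8
    have b4 := (rel_act s).2 b2
    rw [← a6.deriv_eq, ← a7] at b3
    rw [hs, ← deriv_gV] at b4
    obtain ⟨u, b5⟩ := mem_crv.1 hc
    obtain ⟨y, b6, b7⟩ := hx.2 _ b5
    have b8 : ∀ j, Val x j (β 0) (y j) := fun j v hv μ => gr_unique b5 hv (hx.1.1 _) ▸ b7 j μ
    rw [a7, hF y b6 _ a8 (fun j => Cv.val_unique (h1 _ hc) (a7 ▸ (b8 j).smul a8)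
      (hs ▸ (val_act s.isUnit).2 (b8 j))) ((mul_eq_right₀ b1).1 (b3.unique b4 (h1 _ hc) a2.imm)),
      one_smul]
  have h4 : (s : ch.A ν).1 = 1 := funext fun i => ContinuousLinearMap.coe_injective
    (LinearMap.ext_on (h0.span_top (hM i) (freq_not_spc hx.1)) (by
      rintro _ ⟨c, a, rfl⟩
      exact congrFun (h3 c a.1 a.2) i))
  refine Units.ext (Prod.ext h4 (Prod.ext (funext fun l => ContinuousLinearMap.ext fun v => ?_)
    (funext₂ fun n i => ?_)))
  · obtain ⟨μ, rfl⟩ := hx.1.1 l v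
    have := act_Q (s : ch.A ν) x l μ
    rw [hs, sub, h4] at this
    exact this.symm
  · have := congrFun (act_p (s : ch.A ν) x n) i
    rw [hs, h4] at this
    exact smul_left_injective ℂ (crv_ne (hx.1.2.2.2.1 n).1 i) (this.symm.trans (one_smul _ _).symm)

theorem prop_of_kos {j : J} (hj : ch.b j ch.o ≠ 0)
    (h : ∀ (X : Tens ch.M (ch.b j) →L[ℂ] ch.E (some j)) c u, (c, u) ∈ gr x → ∀ μ, val μ c = 0 →
      u (some j) ((s : ch.A ν).2.1 (some j) (X (sub (s : ch.A ν) _ μ)) - X μ) = 0) :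
    ∀ c ∈ crv x, ∃ r : ℂ, gV (gU s) c ch.o = r • c ch.o := fun c hc => by
  obtain ⟨u, hu⟩ := mem_crv.1 hc
  obtain ⟨μ₁, h1⟩ := exists_val_one (a := ch.a (some j)) hu.1
  refine prop_of_val hj (hu.1 _) (fun i => (gV_ne i).2 (hu.1 i)) fun μ hμ => ?_
  have h2 := h ((evL _ c).smulRight ((eU s _).symm (x.Q _ μ₁))) c u hu μ hμ
  have h3 : (s : ch.A ν).2.1 (some j) ((eU s _).symm (x.Q _ μ₁)) = _ := (eU s _).apply_symm_apply _
  simp only [ContinuousLinearMap.smulRight_apply, evL_apply, hμ, zero_smul, sub_zero, map_smul, h3,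
    hu.2 _ μ₁, h1, smul_eq_mul, mul_one] at h2
  exact h2

end Ch

namespace Fam.Good

variable {S Λ R J K : Type} [Fintype S] [Fintype Λ] [Fintype R] [DecidableEq R] [Fintype J]
  [Fintype K] {F : Fam S Λ R J K} (hF : F.Good) (g : ℤ) (n : ℕ) (d : R → ℤ) {k D : ℕ}
  (hD : F.BigD k D) {l : Λ → ℂ} (hl : l ∈ F.B)
include hF hD hl

theorem tame : (F.chart g n d k D).Tame (F.fib l).cone := by
  refine ⟨1, by simp [← Int.cast_sum, Cv.sum_χ g n d hD], fun y hy y' hy' => by_contra fun hn => ?_⟩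
  obtain ⟨q, h1, h2⟩ := exists_seq_not hn
  push Not at h2
  choose t h2 h3 i h4 using h2
  obtain ⟨C, hC⟩ := hF.proper (fun n r => t n (some r) / t n none) (l, y) (l, y')
    (fun n => isUnit_pi_iff.2 fun r => div_ne_zero (h2 n _) (h2 n _)) ⟨hl, hy⟩ ⟨hl, hy'⟩
    (fun n => (q n).1) (continuousAt_fst.tendsto.comp h1) fun j hj =>
      (tendsto_pi_nhds.1 (continuousAt_snd.tendsto.comp h1) j).congr fun n => by
        refine (h3 n j fun o ho => ?_).trans ?_
        · obtain ⟨r, rfl⟩ := Option.ne_none_iff_exists'.1 ho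
          exact Int.toNat_eq_zero.2 (neg_nonpos.2 (hj r))
        · simp [Cv.chart_wd, Cv.prod_hat _ (h2 n _), Wt.actT]
  obtain ⟨m, h5, h6⟩ := (hC.and (tendsto_natCast_atTop_atTop.eventually_ge_atTop C)).exists
  refine (h4 m).not_ge ?_
  rw [Pi.one_apply, one_mul]
  rcases e : i m with _ | r
  · exact (congrArg abs (sub_self _)).trans_le (by simp)
  have k1 := norm_pos_iff.2 (div_ne_zero (h2 m (some r)) (h2 m none))
  have k2 := Real.log_le_self (inv_pos.2 k1).le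
  have k3 := Real.log_le_self k1.le
  have k4 := h5 r
  rw [norm_inv] at k4
  rw [Real.log_inv] at k2
  refine (congrArg abs ((Real.log_div (norm_ne_zero_iff.2 (h2 m _))
    (norm_ne_zero_iff.2 (h2 m none))).symm.trans (congrArg _ (norm_div _ _).symm))).trans_le
      (abs_le.2 ⟨?_, ?_⟩) <;> linarith [k4.1, k4.2]

theorem free' : (F.chart g n d k D).Free (F.fib l).cone := fun y hy t h1 h2 h3 => by
  have h4 := hF.free (fun r => t (some r) / t none)
    (isUnit_pi_iff.2 fun r => div_ne_zero (h1 _) (h1 _)) (l, y) ⟨hl, hy⟩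
    (Prod.ext (F.actL_one _) (funext fun j => by
      simpa [Cv.chart_wd, Cv.prod_hat _ (h1 _), Wt.actT] using h2 j))
  have h5 : ∀ o, t o = t none := by
    rintro (_ | r)
    exacts [rfl, (div_eq_one_iff_eq (h1 _)).1 (congrFun h4 r)]
  simp only [h5, ← zpow_sum_ne (h1 _), Cv.sum_χ g n d hD, zpow_one] at h3
  exact funext fun o => (h5 o).trans h3

end Fam.Good

end Vale.Agent.P269
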