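import Vale.Agent.P269.Prop.Rel
import Vale.Agent.P269.Cpt.Plan

/-!
# A uniform lower bound for the coefficient of `Ξ` along injective discs
-/

set_option linter.unusedSectionVars false

namespace Vale.Agent.P269

open Set Function Topology Filter Holo Base Metric

theorem Base.an_deriv_snd {P F : Type*} [NormedAddCommGroup P] [NormedSpace ℂ P]
    [NormedAddCommGroup F] [NormedSpace ℂ F] [CompleteSpace F] {β : P × ℂ → F} {q : P × ℂ}
    (h : AnalyticAt ℂ β q) : AnalyticAt ℂ (fun q : P × ℂ => deriv (fun w => β (q.1, w)) q.2) q := by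
  refine (an_apply h.fderiv (analyticAt_const (v := (0, 1)))).congr
    (h.eventually_analyticAt.mono fun q hq => ?_)
  exact (fderiv_inr (x := q.1) (y := q.2) hq 1).symm

namespace Ch

variable {J ι ν : Type} [Fintype J] [Fintype ι] [DecidableEq ι] [Fintype ν] {ch : Ch ι J}
  {x : ch.W ν} {c : V ch.M} {β δ : ℂ → V ch.M} {p z : ℂ} {B : ℝ}

/-- The estimate `|z - p|^k ≤ B |Φ|`. -/
def Est (x : ch.W ν) (β : ℂ → V ch.M) (p : ℂ) (B : ℝ) (z : ℂ) : Prop :=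
  z ≠ p ∧ ∀ Φ, Rl x (β z) (deriv β z) Φ → ‖z - p‖ ^ ch.k ≤ B * ‖Φ‖

theorem br_mem (h : IsBranch ch.o (crv x) fun w => β (z + w)) : β z ∈ crv x := by
  simpa using h.mem.self_of_nhds

theorem br_imm (h : IsBranch ch.o (crv x) fun w => β (z + w)) :
    LinearIndependent ℂ ![β z ch.o, deriv β z ch.o] := by
  simpa [deriv_comp_const_add] using h.imm

theorem br_an (h : IsBranch ch.o (crv x) fun w => β (z + w)) : AnalyticAt ℂ β z := by
  have := AnalyticAt.comp (g := fun w => β (z + w)) (f := fun w => w - z) (x := z)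
    (by simpa using h.holo) (analyticAt_id.sub analyticAt_const)
  simpa [comp_def] using this

theorem br_rel (hx : x ∈ ch.base ν) (h : IsBranch ch.o (crv x) fun w => β (z + w))
    (hn : ¬Spc x (β z)) : ∃ φ ≠ 0, Rl x (β z) (deriv β z) φ := by
  simpa [deriv_comp_const_add] using exists_rl hx h (by simpa using hn)

/-- The maximum principle. -/
theorem max_rel (hx : x ∈ ch.base ν) {Ω U : Set ℂ} (hΩ : IsOpen Ω) (hU : Bornology.IsBounded U)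
    (hs : closure U ⊆ Ω)
    (hβ : ∀ z ∈ Ω, IsBranch ch.o (crv x) (fun w => β (z + w)) ∧ (Spc x (β z) ↔ z = p))
    (hB : ∀ z ∈ frontier U, Est x β p B z) (hz : z ∈ closure U) (hp : z ≠ p) : Est x β p B z := by
  classical
  choose! ρ h1 h2 using fun z hz => hx.2.2.2.2.2.1 _ (hβ z hz).1
  have h3 : ∀ z ∈ Ω, ∃ f : ℂ → ℂ, AnalyticAt ℂ f 0 ∧ f 0 = ρ z ∧ ∀ᶠ t in 𝓝 0,
      Rl x (β (z + t)) (deriv β (z + t)) (f t * (if z = p then t else 1) ^ ch.k) := fun z hz => by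
    simpa [deriv_comp_const_add, (hβ z hz).2] using (h2 z hz).rel
  have h4 : ∀ z ∈ Ω, z ≠ p → ∀ Φ, Rl x (β z) (deriv β z) Φ → Φ = ρ z := fun z hz hp Φ hΦ => by
    obtain ⟨f, -, a, b⟩ := h3 z hz
    exact hΦ.unique (by simpa [hp, a] using b.self_of_nhds) (br_mem (hβ z hz).1) (br_imm (hβ z hz).1)
  let G : ℂ → ℂ := fun z => (ρ z)⁻¹ * if z = p then 1 else (z - p) ^ ch.k
  have h5 : ∀ z ∈ Ω, DifferentiableAt ℂ G z := fun z hz => by
    obtain ⟨f, a, b, d⟩ := h3 z hz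
    have e : ∀ᶠ t in 𝓝 0, G (z + t) = (f t)⁻¹ * if z = p then 1 else (z + t - p) ^ ch.k := by
      have k1 : Tendsto (fun t => z + t) (𝓝 0) (𝓝 z) := Continuous.tendsto' (by fun_prop) _ _ (by simp)
      by_cases hp : z = p
      · filter_upwards [d, k1.eventually (hΩ.mem_nhds hz)] with t d1 d2
        rcases eq_or_ne t 0 with rfl | ht
        · simp [G, hp, b]
        · have k2 : z + t ≠ p := by simpa [hp] using ht
          simp only [G, if_neg k2, ← h4 _ d2 k2 _ d1, if_pos hp]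
          rw [hp, add_sub_cancel_left, mul_inv, inv_mul_cancel_right₀ (pow_ne_zero _ ht), mul_one]
      · filter_upwards [d, k1.eventually (hΩ.mem_nhds hz), k1.eventually_ne hp] with t d1 d2 d3
        simp only [G, if_neg d3, ← h4 _ d2 d3 _ d1, if_neg hp, one_pow, mul_one]
    have k3 : DifferentiableAt ℂ (fun t => (f t)⁻¹ * if z = p then 1 else (z + t - p) ^ ch.k) 0 := by
      refine (a.differentiableAt.fun_inv (b ▸ h1 z hz)).fun_mul ?_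
      split_ifs <;> fun_prop
    simpa using (differentiableAt_comp_add_left (f := G) z).1 (k3.congr_of_eventuallyEq e)
  have h6 : ∀ z ∈ Ω, z ≠ p → (‖G z‖ ≤ B ↔ ‖z - p‖ ^ ch.k ≤ B * ‖ρ z‖) := fun z hz hp => by
    simp only [G, if_neg hp, norm_mul, norm_inv, norm_pow]
    rw [inv_mul_le_iff₀ (norm_pos_iff.2 (h1 z hz)), mul_comm]
  refine ⟨hp, fun Φ hΦ => h4 z (hs hz) hp Φ hΦ ▸ (h6 z (hs hz) hp).1
    (Complex.norm_le_of_forall_mem_frontier_norm_le hU (DifferentiableOn.diffContOnCl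
      fun w hw => (h5 w (hs hw)).differentiableWithinAt) (fun w hw => ?_) hz)⟩
  have k1 := hs (frontier_subset_closure hw)
  obtain ⟨Φ, -, k2⟩ := br_rel hx (hβ w k1).1 fun e => (hB w hw).1 ((hβ w k1).2.1 e)
  exact (h6 w k1 (hB w hw).1).2 (h4 w k1 (hB w hw).1 Φ k2 ▸ (hB w hw).2 Φ k2)

/-- The lower bound on a compact set of ordinary points. -/
theorem exists_low (hx : x ∈ ch.base ν) {β : ch.W ν × ℂ → V ch.M} {K : Set ℂ} (hK : IsCompact K)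
    (h : ∀ z ∈ K, AnalyticAt ℂ β (x, z) ∧ IsBranch ch.o (crv x) (fun w => β (x, z + w)) ∧
      ¬Spc x (β (x, z))) : ∃ m : ℝ, 0 < m ∧ ∀ᶠ y in 𝓝 x, ∀ z ∈ K, β (y, z) ∈ crv y →
        ∀ Φ, Rl y (β (y, z)) (deriv (fun w => β (y, w)) z) Φ → m ≤ ‖Φ‖ := by
  have h1 := hK.eventually_forall_of_forall_eventually (x₀ := ((0 : ℝ), x))
    (P := fun q z => β (q.2, z) ∈ crv q.2 →
      ∀ Φ, Rl q.2 (β (q.2, z)) (deriv (fun w => β (q.2, w)) z) Φ → q.1 ≤ ‖Φ‖) fun z hz => by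
    obtain ⟨a1, a2, a3⟩ := h z hz
    obtain ⟨φ, b1, b2⟩ := br_rel (β := fun w => β (x, w)) hx a2 a3
    by_contra hn
    have hl := frequently_iff_neBot.1 (not_eventually.1 hn)
    set l := 𝓝 (((0 : ℝ), x), z) ⊓ _
    have k0 : l ≤ 𝓝 _ := inf_le_left
    have : ∀ q : (ℝ × ch.W ν) × ℂ, ¬(β (q.1.2, q.2) ∈ crv q.1.2 → ∀ Φ, Rl q.1.2
        (β (q.1.2, q.2)) (deriv (fun w => β (q.1.2, w)) q.2) Φ → q.1.1 ≤ ‖Φ‖) → ∃ Φ : ℂ,
        (β (q.1.2, q.2) ∈ crv q.1.2 ∧ Rl q.1.2 (β (q.1.2, q.2))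
          (deriv (fun w => β (q.1.2, w)) q.2) Φ) ∧ ‖Φ‖ < q.1.1 := fun q hq => by
      push Not at hq
      exact hq.2.imp fun _ h => ⟨⟨hq.1, h.1⟩, h.2⟩
    choose! Φ hΦ using this
    have k1 := (eventually_inf_principal.2 (.of_forall hΦ) : ∀ᶠ q in l, _)
    have k2 : Tendsto (fun q : (ℝ × ch.W ν) × ℂ => (q.1.2, q.2)) l (𝓝 (x, z)) :=
      (Continuous.tendsto' (by fun_prop) _ _ rfl).mono_left k0
    have k3 := b2.tendsto (br_mem (β := fun w => β (x, w)) a2) (br_imm (β := fun w => β (x, w)) a2)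
      (hx.1 none) ((continuous_fst.tendsto _).comp k2) (a1.continuousAt.tendsto.comp k2)
      ((an_deriv_snd a1).continuousAt.tendsto.comp k2) (k1.mono fun q hq => hq.1)
    exact b1 (norm_le_zero_iff.1 (le_of_tendsto_of_tendsto k3.norm
      ((continuous_fst.fst.tendsto _).mono_left k0) (k1.mono fun q hq => hq.2.le)))
  rw [nhds_prod_eq] at h1
  obtain ⟨P, h2, Q, h3, h4⟩ := eventually_prod_iff.1 h1
  obtain ⟨m, h5, h6⟩ := ((h2.filter_mono nhdsWithin_le_nhds).and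
    (self_mem_nhdsWithin (a := (0 : ℝ)) (s := Ioi 0))).exists
  exact ⟨m, h6, h3.mono fun y hy => h4 h5 hy⟩

theorem li_smul {v : V ch.M} (h : LinearIndependent ℂ ![c ch.o, v ch.o]) {s : ι → ℂ}
    (hs : s ch.o ≠ 0) : LinearIndependent ℂ ![(s • c) ch.o, (s • v) ch.o] :=
  li_pair (smul_ne_zero hs (h.ne_zero 0)) fun e t he => (mul_eq_zero.1 (of_li_pair h
    (e := e * s ch.o) (s := t * s ch.o) (by rw [mul_smul, mul_smul]; exact he))).resolve_right hs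

/-- The Koebe estimate. -/
theorem exists_koebe : ∃ C : ℝ, 0 < C ∧ ∀ {x : ch.W ν} {β δ : ℂ → V ch.M} {s : ℂ → ι → ℂ}
    {h : ℂ → ℂ} {r B : ℝ} {p φ : ℂ}, x ∈ ch.base ν → 0 < r → AnalyticAt ℂ s 0 → (∀ i, s 0 i ≠ 0) →
    DifferentiableOn ℂ h (ball 0 r) → InjOn h (ball 0 r) → (∀ ζ ∈ ball 0 r, h ζ ≠ p) →
    IsBranch ch.o (crv x) (fun w => β (h 0 + w)) → ¬Spc x (β (h 0)) →
    (∀ ζ ∈ ball 0 r, δ ζ = s ζ • β (h ζ)) → Est x β p B (h 0) → Rl x (δ 0) (deriv δ 0) φ →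
    ‖∏ i, s 0 i ^ ch.χ i‖ * r ^ ch.k ≤ B * C ^ ch.k * ‖φ‖ := by
  obtain ⟨C, hC, h1⟩ := Cpt.logd 1
  refine ⟨C, hC, fun {x β δ s h r B p φ} hx hr hs s0 hh inj hp hβ hn e hE hφ => ?_⟩
  have hb := ball_mem_nhds (0 : ℂ) hr
  have h2 := h1 (fun ζ => h ζ - p) 0 r hr (hh.sub_const p) (fun ζ hζ => sub_ne_zero.2 (hp ζ hζ))
    fun v => encard_le_one_iff.2 fun a b ha hb =>
      inj ha.1 hb.1 (sub_left_injective (ha.2.trans hb.2.symm))
  rw [deriv_sub_const] at h2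
  obtain ⟨Φ, -, h3⟩ := br_rel hx hβ hn
  have h4 : deriv δ 0 = deriv s 0 • β (h 0) + s 0 • deriv h 0 • deriv β (h 0) :=
    (EventuallyEq.deriv_eq (eventually_of_mem hb e)).trans (hasDerivAt_smul
      hs.differentiableAt.hasDerivAt ((br_an hβ).differentiableAt.hasDerivAt.scomp 0
        (hh.differentiableAt hb).hasDerivAt)).deriv
  rw [e 0 (mem_ball_self hr)] at hφ
  have h5 := (hφ.of_eq (v := s 0 • deriv β (h 0)) (a := deriv s 0 ch.o / s 0 ch.o) (b := deriv h 0)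
    (by simp [h4, Pi.smul_apply', smul_smul, div_mul_cancel₀ _ (s0 _), mul_comm (deriv h 0)])).unique (h3.smul s0)
      (crv_smul (br_mem hβ) s0) (li_smul (br_imm hβ) (s0 _))
  have h6 := hE.2 Φ h3
  have h7 : 0 < ‖h 0 - p‖ ^ ch.k := pow_pos (norm_pos_iff.2 (sub_ne_zero.2 hE.1)) _
  have h8 : 0 ≤ B := (pos_of_mul_pos_left (h7.trans_le h6) (norm_nonneg _)).le
  have h9 := pow_le_pow_left₀ (by positivity) h2 ch.k
  have h10 := congrArg norm h5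
  rw [mul_pow, mul_pow] at h9
  rw [norm_mul, norm_mul, norm_pow] at h10
  refine le_of_mul_le_mul_right ?_ h7
  calc _ ≤ ‖∏ i, s 0 i ^ ch.χ i‖ * r ^ ch.k * (B * ‖Φ‖) := by gcongr
    _ = B * ‖φ‖ * (r ^ ch.k * ‖deriv h 0‖ ^ ch.k) := by linear_combination (-B * r ^ ch.k) * h10
    _ ≤ B * ‖φ‖ * (C ^ ch.k * ‖h 0 - p‖ ^ ch.k) := by gcongr
    _ = _ := by ring

variable {x : ch.base ν}

theorem not_mark {E : Type*} [NormedAddCommGroup E] [NormedSpace ℂ E] {σ : ch.W ν × E → V ch.M}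
    (hσ : AnalyticAt ℂ σ (x, 0)) (hc : σ (x, 0) ∈ crv x.1) {n : ν}
    (hn : ¬∃ s : ι → ℂ, σ (x, 0) = s • x.1.p n) :
    ∀ᶠ q : ch.base ν × E in 𝓝 (x, 0), ¬∃ s : ι → ℂ, σ (q.1, q.2) = s • q.1.1.p n := by
  have h1 : Tendsto (fun q : ch.base ν × E => σ (q.1, q.2)) (𝓝 (x, 0)) (𝓝 (σ (x, 0))) :=
    hσ.continuousAt.tendsto.comp (tendsto_pm continuous_subtype_val.continuousAt 0)
  filter_upwards [((W.tendsto_p ((continuous_subtype_val.tendsto x).comp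
    (continuousAt_fst (p := (x, (0 : E))))) n).prodMk_nhds h1).eventually (eventually_not_orb (crv_ne (x.2.2.2.2.1 n).1) (crv_ne hc)
      fun ⟨s, _, e⟩ => hn ⟨s, e⟩), h1.eventually (eventually_ne (crv_ne hc))] with q a b ⟨s, e⟩
  exact a (Orb.of_smul b e)

section Smooth

variable {σ : ch.W ν × ℂ → V ch.M}
  (hf : LocFam ch.o (fun y : ch.base ν => crv y.1) Subtype.val x)
  (h : Chart ch.o (fun y : ch.base ν => crv y.1) Subtype.val x σ fun _ => univ)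
include hf h

theorem sm_ev : ∀ᶠ q : ch.base ν × ℂ in 𝓝 (x, 0),
    IsBranch ch.o (crv q.1.1) (fun w => σ (q.1, q.2 + w)) ∧ ¬IsNode ch.o (crv q.1.1) (σ (q.1, q.2)) := by
  have hS : SmAt _ _ _ _ _ := ⟨σ, rfl, h⟩
  have hc := crv_ne hS.mem
  filter_upwards [h.isBranch hf, h.shift hf.cont hc hf.cone,
    continuousAt_fst.eventually hf.eventually] with q a b d
  have k : SmAt _ _ _ q.1 (σ (q.1, q.2)) := ⟨_, by simp, b⟩
  exact ⟨a, k.not_isNode d⟩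

theorem sm_spc : ∃ ε : ℝ, 0 < ε ∧ ε ≤ 1 ∧ ∀ η : ℝ, 0 < η → ∀ᶠ y : ch.base ν in 𝓝 x, ∃ p : ℂ,
    (‖p‖ < η ∨ p = 1) ∧ ∀ z ∈ ball (0 : ℂ) ε, AnalyticAt ℂ σ (y, z) ∧
      IsBranch ch.o (crv y.1) (fun w => σ (y, z + w)) ∧ (Spc y.1 (σ (y, z)) ↔ z = p) := by
  have hS : SmAt _ _ _ _ _ := ⟨σ, rfl, h⟩
  have hc := hS.mem
  have h1 := ((tendsto_pm continuous_subtype_val.continuousAt 0).eventually
    h.an.eventually_analyticAt).and (sm_ev hf h)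
  by_cases hn : ∃ n, ∃ s : ι → ℂ, σ (x, 0) = s • x.1.p n
  · obtain ⟨n, s, e⟩ := hn
    have hs := ne_of_smul_ne (e ▸ crv_ne hc)
    have h2 : ∀ n', ∀ᶠ q : ch.base ν × ℂ in 𝓝 (x, 0),
        (∃ s : ι → ℂ, σ (q.1, q.2) = s • q.1.1.p n') → n' = n := fun n' => by
      by_cases k : n' = n
      · exact .of_forall fun _ _ => k
      · refine (not_mark h.an hc fun ⟨t, e'⟩ => k (x.2.2.2.2.2.1 n n' (s⁻¹ * t) ?_).symm).mono
          fun q a b => absurd b a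
        rw [mul_smul, ← e', e, inv_smul_smul' hs]
    obtain ⟨ε, h3, h4⟩ := exists_ball (h1.and (eventually_all.2 h2))
    obtain ⟨ε', h5, h6⟩ := exists_ball ((tendsto_pm continuous_subtype_val.continuousAt 0).eventually
      (h.inj (crv_ne hc)))
    refine ⟨min 1 (min ε ε'), by positivity, min_le_left _ _, fun η hη => ?_⟩
    have h7 : Tendsto (fun y : ch.base ν => (y, s • y.1.p n)) (𝓝 x) (𝓝 (x, σ (x, 0))) :=
      tendsto_id.prodMk_nhds (e ▸ tendsto_smul tendsto_const_nhds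
        (W.tendsto_p (continuous_subtype_val.tendsto x) n))
    filter_upwards [h4, h6, h7.eventually (h.sub _ (ball_mem_nhds 0 (lt_min hη h5)))] with y a b d
    have k0 := crv_smul (y.2.2.2.2.1 n).1 hs
    obtain ⟨t, p, k1, -, k2⟩ := d k0
    have ht := ne_of_smul_ne (k2 ▸ crv_ne k0)
    simp only [mem_ball_zero_iff, lt_min_iff] at k1 ⊢
    refine ⟨p, .inl k1.1, fun z hz => ⟨(a z hz.2.1).1.1, (a z hz.2.1).1.2.1, ?_, ?_⟩⟩
    · rintro (k | ⟨n', u, k⟩)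
      · exact absurd k (a z hz.2.1).1.2.2
      · obtain rfl := (a z hz.2.1).2 n' ⟨u, k⟩
        refine (b (p, z) (by simp [Prod.norm_def, k1.2, hz.2.2]) (u * s⁻¹ * t) ?_).2.symm
        rw [mul_smul, ← k2, mul_smul, inv_smul_smul' hs]
        exact k
    · rintro rfl
      exact .inr ⟨n, t⁻¹ * s, by rw [mul_smul, k2, inv_smul_smul' ht]⟩
  · obtain ⟨ε, h3, h4⟩ := exists_ball (h1.and (eventually_all.2 fun n =>
      not_mark h.an hc fun k => hn ⟨n, k⟩))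
    refine ⟨min 1 ε, by positivity, min_le_left _ _, fun η _ => h4.mono fun y a =>
      ⟨1, .inr rfl, fun z hz => ?_⟩⟩
    simp only [mem_ball_zero_iff, lt_min_iff] at hz
    refine ⟨(a z hz.2).1.1, (a z hz.2).1.2.1, ?_, fun e => by simp [e] at hz⟩
    rintro (k | ⟨n, k⟩)
    exacts [absurd k (a z hz.2).1.2.2, absurd k ((a z hz.2).2 n)]

theorem sm_est : ∃ ε : ℝ, 0 < ε ∧ ∃ B : ℝ, ∀ᶠ y : ch.base ν in 𝓝 x, ∃ p : ℂ, ∀ z ∈ ball (0 : ℂ) ε,
    IsBranch ch.o (crv y.1) (fun w => σ (y, z + w)) ∧ (¬Spc y.1 (σ (y, z)) →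
      Est y.1 (fun w => σ (y, w)) p B z) := by
  obtain ⟨ε, h1, h2, h3⟩ := sm_spc hf h
  have h4 := h3 (ε / 2) (by positivity)
  have h5 : closedBall (0 : ℂ) (ε / 2) ⊆ ball 0 ε := closedBall_subset_ball (by linarith)
  have h6 : ∀ p : ℂ, ‖p‖ < ε / 2 ∨ p = 1 → ∀ z ∈ sphere (0 : ℂ) (ε / 2), z ≠ p ∧ ‖z - p‖ ≤ 2 := by
    intro p hp z hz
    rw [mem_sphere_zero_iff_norm] at hz
    refine ⟨fun e => ?_, (norm_sub_le _ _).trans ?_⟩ <;> rcases hp with hp | rfl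
    · exact (e ▸ hz ▸ hp).false
    · rw [e, norm_one] at hz
      linarith
    · linarith
    · rw [norm_one]
      linarith
  obtain ⟨p₀, k1, k2⟩ := h4.self_of_nhds
  obtain ⟨m, h7, h8⟩ := exists_low x.2 (β := σ) (isCompact_sphere 0 (ε / 2)) fun z hz =>
    (k2 z (h5 (sphere_subset_closedBall hz))).imp_right (And.imp_right fun k e =>
      (h6 _ k1 z hz).1 (k.1 e))
  refine ⟨ε / 2, by positivity, 2 ^ ch.k / m, ?_⟩
  filter_upwards [h4, continuous_subtype_val.continuousAt.eventually h8] with y ⟨p, a, b⟩ d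
  refine ⟨p, fun z hz => ⟨(b z (h5 (ball_subset_closedBall hz))).2.1, fun hn => max_rel y.2
    isOpen_ball isBounded_ball (closure_ball_subset_closedBall.trans h5) (fun z hz => (b z hz).2)
    (fun w hw => ?_) (subset_closure hz) fun e =>
      hn ((b z (h5 (ball_subset_closedBall hz))).2.2.2 e)⟩⟩
  have k3 := frontier_ball_subset_sphere hw
  refine ⟨(h6 p a w k3).1, fun Φ hΦ => ?_⟩
  calc _ ≤ 2 ^ ch.k / m * m := by
        rw [div_mul_cancel₀ _ h7.ne']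
        exact pow_le_pow_left₀ (norm_nonneg _) (h6 p a w k3).2 _
    _ ≤ _ := by
        gcongr
        exact d w k3 (br_mem (β := fun w => σ (y, w))
          (b w (h5 (sphere_subset_closedBall k3))).2.1) Φ hΦ

end Smooth

section Node

variable {σ : ch.W ν × ℂ × ℂ → V ch.M} {τ : ch.W ν → ℂ}
  (hf : LocFam ch.o (fun y : ch.base ν => crv y.1) Subtype.val x)
  (h : Chart ch.o (fun y : ch.base ν => crv y.1) Subtype.val x σ fun p => {z | z.1 * z.2 = τ p})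
  (hτ : AnalyticAt ℂ τ x) (h0 : τ x = 0)
include hf h hτ h0

theorem nd_low : ∃ ε : ℝ, 0 < ε ∧ (∀ᶠ y : ch.base ν in 𝓝 x, ∀ z : ℂ, ‖z‖ < ε → ‖τ y / z‖ < ε →
    z ≠ 0 ∨ τ y = 0 → IsBranch ch.o (crv y.1) (fun w => σ (y, (z + w, τ y / (z + w)))) ∧
      (Spc y.1 (σ (y, (z, τ y / z))) ↔ z = 0)) ∧ ∀ η : ℝ, 0 < η → η < ε → ∃ m : ℝ, 0 < m ∧
    ∀ᶠ y : ch.base ν in 𝓝 x, ∀ z : ℂ, ‖z‖ = η → ∀ Φ,
      Rl y.1 (σ (y, (z, τ y / z))) (deriv (fun w => σ (y, (w, τ y / w))) z) Φ → m ≤ ‖Φ‖ := by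
  have hN : NdAt _ _ _ _ _ τ := ⟨σ, rfl, hτ, h0, h⟩
  have k0 := continuous_subtype_val.continuousAt (x := x)
  obtain ⟨ε, h1, h2⟩ := exists_ball (((h.eventually_disc hτ h0 hf).and (h.eventually_smAt hτ h0 hf)).and
    ((eventually_all.2 fun n => not_mark h.an hN.mem fun ⟨s, e⟩ => (x.2.2.2.2.1 n).2
      ((isNode_smul_iff (ne_of_smul_ne (e ▸ crv_ne hN.mem)) fun t ht c hc => crv_smul hc ht).1
        (e ▸ hN.isNode hf))).and ((tendsto_pm k0 0).eventually h.an.eventually_analyticAt)))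
  have h3 : ∀ᶠ y : ch.base ν in 𝓝 x, ∀ z : ℂ, ‖z‖ < ε → ‖τ y / z‖ < ε → z ≠ 0 ∨ τ y = 0 →
      IsBranch ch.o (crv y.1) (fun w => σ (y, (z + w, τ y / (z + w)))) ∧
        (Spc y.1 (σ (y, (z, τ y / z))) ↔ z = 0) := by
    filter_upwards [h2, hf.eventually, h.eventually_node h0 hf,
      k0.eventually hτ.eventually_analyticAt] with y a b d e z k1 k2 k3
    rcases eq_or_ne z 0 with rfl | hz
    · have k4 := k3.resolve_left fun k => k rfl
      have k5 : NdAt _ _ _ _ _ τ := ⟨σ, rfl, e, k4, d⟩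
      refine ⟨by simpa [k4] using (d.isCross k4 (crv_ne k5.mem _)).1, iff_of_true (.inl ?_) rfl⟩
      rw [div_zero]
      exact k5.isNode b
    · obtain ⟨⟨a1, a2⟩, a3, -⟩ := a (z, τ y / z) (max_lt k1 k2)
      have k4 : z * (τ y / z) = τ y := mul_div_cancel₀ _ hz
      have k5 := a2 k4 fun k => hz (congrArg Prod.fst k)
      refine ⟨(a1 k4 hz).isBranch0 (by simpa using crv_ne k5.mem _), iff_of_false ?_ hz⟩
      rintro (k | ⟨n, k⟩)
      exacts [k5.not_isNode b k, a3 n k]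
  refine ⟨ε, h1, h3, fun η h4 h5 => ?_⟩
  have h6 : ∀ z ∈ sphere (0 : ℂ) η, z ≠ 0 := fun z hz => ne_zero_of_mem_sphere h4.ne' ⟨z, hz⟩
  obtain ⟨m, h7, h8⟩ := exists_low x.2 (β := fun q => σ (q.1, (q.2, τ q.1 / q.2)))
    (isCompact_sphere 0 η) fun z hz => by
      have k1 : ‖z‖ < ε := (mem_sphere_zero_iff_norm.1 hz).trans_lt h5
      have k2 := h3.self_of_nhds z k1 (by simpa [h0] using h1) (.inl (h6 z hz))
      refine ⟨AnalyticAt.comp (f := fun q : ch.W ν × ℂ => (q.1, (q.2, τ q.1 / q.2)))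
        (h2.self_of_nhds _ (max_lt k1 (by simpa [h0] using h1))).2.2 (analyticAt_fst.prod
          (analyticAt_snd.prod ((hτ.comp (f := Prod.fst) analyticAt_fst).div analyticAt_snd
            (h6 z hz)))), k2.1, fun k => h6 z hz (k2.2.1 k)⟩
  refine ⟨m, h7, ?_⟩
  filter_upwards [h3, k0.eventually h8, (hτ.continuousAt.comp k0).norm.eventually_lt
    (continuousAt_const (y := ε * η)) (by simpa [h0] using mul_pos h1 h4)] with y a b d z hz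
  have k1 := mem_sphere_zero_iff_norm.2 hz
  exact b z k1 (br_mem (β := fun w => σ (y, (w, τ y / w))) (a z (hz.trans_lt h5)
    (by rwa [norm_div, hz, div_lt_iff₀ h4]) (.inl (h6 z k1))).1)

theorem nd_est : ∃ ε : ℝ, 0 < ε ∧ ∃ B : ℝ, ∀ᶠ y : ch.base ν in 𝓝 x, ∀ z : ℂ, ‖z‖ < ε →
    ‖τ y / z‖ < ε → z ≠ 0 → IsBranch ch.o (crv y.1) (fun w => σ (y, (z + w, τ y / (z + w)))) ∧
      Est y.1 (fun w => σ (y, (w, τ y / w))) 0 B z := by
  obtain ⟨ε₁, a1, a2, a3⟩ := nd_low hf h hτ h0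
  obtain ⟨ε₂, b1, b2, b3⟩ := nd_low hf (h.swap_node hf.cont.self_of_nhds) hτ h0
  obtain ⟨ε, h1, h2, h3⟩ : ∃ ε : ℝ, 0 < ε ∧ ε < ε₁ ∧ ε < ε₂ :=
    ⟨min ε₁ ε₂ / 2, by positivity, by linarith [min_le_left ε₁ ε₂], by linarith [min_le_right ε₁ ε₂]⟩
  obtain ⟨m₁, a4, a5⟩ := a3 ε h1 h2
  obtain ⟨m₂, b4, b5⟩ := b3 ε h1 h3
  have hm := lt_min a4 b4
  refine ⟨ε, h1, ε ^ ch.k / min m₁ m₂, ?_⟩
  filter_upwards [a2, a5, b2, b5] with y a a' b b' z k1 k2 k3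
  refine ⟨(a z (k1.trans h2) (k2.trans h2) (.inl k3)).1, ?_⟩
  have e1 : ∀ w ∈ sphere (0 : ℂ) ε, Est y.1 (fun w => σ (y, (w, τ y / w))) 0
      (ε ^ ch.k / min m₁ m₂) w := fun w hw => by
    refine ⟨ne_zero_of_mem_sphere h1.ne' ⟨w, hw⟩, fun Φ hΦ => ?_⟩
    rw [mem_sphere_zero_iff_norm] at hw
    rw [sub_zero, hw, div_mul_eq_mul_div, le_div_iff₀ hm]
    gcongr
    exact (min_le_left _ _).trans (a' w hw Φ hΦ)
  rcases eq_or_ne (τ y) 0 with e | e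
  · exact max_rel (Ω := ball 0 ε₁) (U := ball 0 ε) y.2 isOpen_ball isBounded_ball
      (closure_ball_subset_closedBall.trans (closedBall_subset_ball h2))
      (fun w hw => a w (mem_ball_zero_iff.1 hw) (by simpa [e] using a1) (.inr e))
      (fun w hw => e1 w (frontier_ball_subset_sphere hw)) (subset_closure (mem_ball_zero_iff.2 k1)) k3
  have e2 : 0 < ‖τ y‖ := norm_pos_iff.2 e
  refine max_rel (Ω := ball 0 ε₁ ∩ (closedBall 0 (‖τ y‖ / ε₁))ᶜ)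
    (U := ball 0 ε ∩ (closedBall 0 (‖τ y‖ / ε))ᶜ) y.2 (isOpen_ball.inter isClosed_closedBall.isOpen_compl)
    (isBounded_ball.subset inter_subset_left) (fun w hw => ?_) (fun w hw => ?_) (fun w hw => ?_)
    (subset_closure ⟨mem_ball_zero_iff.2 k1, ?_⟩) k3
  · obtain ⟨k4, k5⟩ := closure_inter_subset_inter_closure _ _ hw
    rw [closure_compl] at k5
    refine ⟨closedBall_subset_ball h2 (closure_ball_subset_closedBall k4), fun k => k5
      (ball_subset_interior_closedBall (closedBall_subset_ball (by gcongr) k))⟩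
  · have k4 : ‖τ y‖ / ε₁ < ‖w‖ := by simpa using hw.2
    have k5 := (div_pos e2 a1).trans k4
    exact a w (mem_ball_zero_iff.1 hw.1) (by rwa [norm_div, div_lt_comm₀ k5 a1])
      (.inl (norm_pos_iff.1 k5))
  · rcases frontier_inter_subset _ _ hw with k | k
    · exact e1 w (frontier_ball_subset_sphere k.1)
    have k4 : ‖w‖ = ‖τ y‖ / ε := mem_sphere_zero_iff_norm.1
      (frontier_closedBall_subset_sphere (frontier_compl (closedBall (0 : ℂ) _) ▸ k.2))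
    have k5 : w ≠ 0 := norm_pos_iff.1 (k4 ▸ div_pos e2 h1)
    have k6 : ‖τ y / w‖ = ε := by rw [norm_div, k4, div_div_cancel₀ e2.ne']
    have k7 : τ y / (τ y / w) = w := div_div_cancel₀ e
    have k8 := closure_ball_subset_closedBall (closure_mono inter_subset_left
      (frontier_subset_closure hw))
    have k9 := br_an (β := fun u => σ (y, (τ y / u, u))) (b (τ y / w) (k6.trans_lt h3)
      (by rw [k7]; exact (mem_closedBall_zero_iff.1 k8).trans_lt h3) (.inl (div_ne_zero e k5))).1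
    have k10 : deriv (fun w => σ (y, (w, τ y / w))) w =
        (-τ y / w ^ 2) • deriv (fun u => σ (y, (τ y / u, u))) (τ y / w) := by
      refine (EventuallyEq.deriv_eq (f := (fun u => σ (y, (τ y / u, u))) ∘ fun u => τ y / u)
        (.of_forall fun u => by simp only [comp_apply, div_div_cancel₀ e])).trans
        (k9.differentiableAt.hasDerivAt.scomp w ?_).deriv
      simpa using (hasDerivAt_const w (τ y)).fun_div (hasDerivAt_id' w) k5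
    refine ⟨k5, fun Φ hΦ => ?_⟩
    have k11 := b' _ k6 (Φ * (-τ y / w ^ 2) ^ ch.k) (by
      simpa only [Prod.swap_prod_mk, k7] using hΦ.of_eq (a := 0) (by rw [k10]; simp))
    have k12 : ‖-τ y / w ^ 2‖ * ‖w‖ = ε := by
      rw [← k6, ← norm_mul, ← norm_neg]
      congr 1
      field_simp
    rw [sub_zero, div_mul_eq_mul_div, le_div_iff₀ hm, ← k12, mul_pow]
    rw [norm_mul, norm_pow] at k11
    nlinarith [pow_nonneg (norm_nonneg w) ch.k, min_le_right m₁ m₂]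
  · rw [norm_div, div_lt_comm₀ (norm_pos_iff.2 k3) h1] at k2
    simpa using k2

end Node

theorem exists_fac {E : Type*} [NormedAddCommGroup E] [NormedSpace ℂ E] [FiniteDimensional ℂ E]
    {σ : ch.W ν × E → V ch.M} {X : ch.W ν → Set E}
    (hf : LocFam ch.o (fun y : ch.base ν => crv y.1) Subtype.val x)
    (h : Chart ch.o (fun y : ch.base ν => crv y.1) Subtype.val x σ X) (hc : ∀ i, σ (x, 0) i ≠ 0)
    {ε : ℝ} (hε : 0 < ε) : ∃ (s : ch.W ν × V ch.M → ι → ℂ) (e : ch.W ν × V ch.M → E),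
      ∃ O ∈ 𝓝 (σ (x, 0)), ∀ᶠ y : ch.base ν in 𝓝 x, ∀ c ∈ O, c ∈ crv y.1 →
        AnalyticAt ℂ s (y, c) ∧ AnalyticAt ℂ e (y, c) ∧ (∀ i, s (y, c) i ≠ 0) ∧
        1 / 2 ≤ ‖∏ i, s (y, c) i ^ ch.χ i‖ ∧ ‖e (y, c)‖ < ε ∧ e (y, c) ∈ X y ∧
        c = s (y, c) • σ (y, e (y, c)) := by
  obtain ⟨ρ, h1, h2, -, h3⟩ := h.exists_mem_iff hf.cont.self_of_nhds hc hf.cone
  have h4 := h1.continuousAt.tendsto
  rw [h2] at h4
  have h5 : ∀ᶠ w : (ι → ℂ) × E in 𝓝 (1, 0), (∀ i, w.1 i ≠ 0) ∧ 1 / 2 < ‖∏ i, w.1 i ^ ch.χ i‖ ∧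
      ‖w.2‖ < ε := by
    have k1 : ∀ i, ContinuousAt (fun w : (ι → ℂ) × E => w.1 i) (1, 0) := fun i => by fun_prop
    have k2 : ContinuousAt (fun w : (ι → ℂ) × E => ‖∏ i, w.1 i ^ ch.χ i‖) (1, 0) :=
      ContinuousAt.norm (tendsto_finsetProd _ fun i _ => (k1 i).zpow₀ _ (.inl (by simp)))
    exact (eventually_all.2 fun i => (k1 i).eventually_ne (by simp)).and
      (.and (continuousAt_const.eventually_lt k2 (by norm_num))
        (continuousAt_snd.norm.eventually_lt continuousAt_const (by simpa)))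
  have h6 := h3.and ((tendsto_pm continuous_subtype_val.continuousAt _).eventually
    (h1.eventually_analyticAt.and (h4.eventually h5)))
  rw [nhds_prod_eq] at h6
  obtain ⟨P, h7, O, h8, h9⟩ := eventually_prod_iff.1 h6
  refine ⟨fun q => (ρ q).1, fun q => (ρ q).2, _, h8, h7.mono fun y hy c hO hc => ?_⟩
  obtain ⟨a, b, d⟩ := h9 hy hO
  exact ⟨analyticAt_fst.comp b, analyticAt_snd.comp b, d.1, d.2.1.le, d.2.2, a.1 hc⟩

/-- `δ` is an injective disc of radius `r` through ordinary points of the curve inside `O`. -/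
structure Disc (y : ch.W ν) (O : Set (V ch.M)) (r : ℝ) (δ : ℂ → V ch.M) : Prop where
  pos : 0 < r
  an : ∀ ζ ∈ ball (0 : ℂ) r, AnalyticAt ℂ δ ζ
  mem : ∀ ζ ∈ ball (0 : ℂ) r, δ ζ ∈ crv y
  sub : ∀ ζ ∈ ball (0 : ℂ) r, δ ζ ∈ O
  ord : ∀ ζ ∈ ball (0 : ℂ) r, ¬Spc y (δ ζ)
  inj : ∀ ζ ∈ ball (0 : ℂ) r, ∀ ζ' ∈ ball (0 : ℂ) r, ∀ s : ι → ℂ, δ ζ = s • δ ζ' → ζ = ζ'

/-- The lower bound. -/
theorem exists_lb (hf : LocFam ch.o (fun y : ch.base ν => crv y.1) Subtype.val x)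
    (hc : c ∈ crv x.1) : ∃ O ∈ 𝓝 c, ∃ m : ℝ, 0 < m ∧ ∀ᶠ y : ch.base ν in 𝓝 x, ∀ r δ φ,
      Disc y.1 O r δ → Rl y.1 (δ 0) (deriv δ 0) φ → m * r ^ ch.k ≤ ‖φ‖ := by
  obtain ⟨C, hC, hK⟩ := exists_koebe (ch := ch) (ν := ν)
  have key : ∀ {y : ch.base ν} {O r δ φ B p} {β : ℂ → V ch.M} {s : ℂ → ι → ℂ} {h : ℂ → ℂ},
      Disc y.1 O r δ → Rl y.1 (δ 0) (deriv δ 0) φ →
      (∀ ζ ∈ ball (0 : ℂ) r, AnalyticAt ℂ s ζ ∧ AnalyticAt ℂ h ζ ∧ (∀ i, s ζ i ≠ 0) ∧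
        1 / 2 ≤ ‖∏ i, s ζ i ^ ch.χ i‖ ∧ δ ζ = s ζ • β (h ζ) ∧
        IsBranch ch.o (crv y.1) (fun w => β (h ζ + w)) ∧ Est y.1 β p B (h ζ)) →
      ∀ B', B ≤ B' → 1 / (2 * (max B' 1 * C ^ ch.k)) * r ^ ch.k ≤ ‖φ‖ := by
    intro y O r δ φ B p β s h hd hφ H B' hB
    have h0 := H 0 (mem_ball_self hd.pos)
    have h1 := hK y.2 hd.pos h0.1 h0.2.2.1 (fun ζ hζ => (H ζ hζ).2.1.differentiableAt.differentiableWithinAt)
      (fun a ha b hb e => hd.inj a ha b hb (s a * (s b)⁻¹) (by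
        rw [(H a ha).2.2.2.2.1, (H b hb).2.2.2.2.1, mul_smul, inv_smul_smul' (H b hb).2.2.1, e]))
      (fun ζ hζ => (H ζ hζ).2.2.2.2.2.2.1) h0.2.2.2.2.2.1 (fun k => hd.ord 0 (mem_ball_self hd.pos)
        (h0.2.2.2.2.1 ▸ (spc_smul h0.2.2.1).2 k)) (fun ζ hζ => (H ζ hζ).2.2.2.2.1) h0.2.2.2.2.2.2 hφ
    have h2 := pow_pos hd.pos ch.k
    have h3 : B * C ^ ch.k * ‖φ‖ ≤ max B' 1 * C ^ ch.k * ‖φ‖ := by
      gcongr
      exact hB.trans (le_max_left _ _)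
    rw [div_mul_eq_mul_div, div_le_iff₀ (by positivity)]
    nlinarith [h0.2.2.2.1]
  rcases hf.chart c hc with ⟨σ, rfl, h⟩ | ⟨τ, σ, rfl, hτ, h0, h⟩
  · obtain ⟨ε, h1, B, h2⟩ := sm_est hf h
    obtain ⟨s, e, O, h3, h4⟩ := exists_fac hf h (crv_ne hc) h1
    refine ⟨O, h3, 1 / (2 * (max B 1 * C ^ ch.k)), by positivity, ?_⟩
    filter_upwards [h2, h4] with y ⟨p, a⟩ b r δ φ hd hφ
    refine key (β := fun w => σ (y, w)) (s := fun ζ => s (y, δ ζ)) (h := fun ζ => e (y, δ ζ))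
      (p := p) hd hφ (fun ζ hζ => ?_) B le_rfl
    obtain ⟨b1, b2, b3, b4, b5, -, b6⟩ := b _ (hd.sub ζ hζ) (hd.mem ζ hζ)
    have k1 := analyticAt_const.prod (hd.an ζ hζ) (f := fun _ => y.1)
    have k2 := a _ (mem_ball_zero_iff.2 b5)
    exact ⟨b1.comp_of_eq k1 rfl, b2.comp_of_eq k1 rfl, b3, b4, b6, k2.1, k2.2 fun k => hd.ord ζ hζ
      (b6 ▸ (spc_smul b3).2 k)⟩
  obtain ⟨ε₁, a1, B₁, a2⟩ := nd_est hf h hτ h0
  obtain ⟨ε₂, b1, B₂, b2⟩ := nd_est hf (h.swap_node hf.cont.self_of_nhds) hτ h0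
  obtain ⟨s, e, O, h3, h4⟩ := exists_fac hf h (crv_ne hc) (lt_min a1 b1)
  refine ⟨O, h3, 1 / (2 * (max (max B₁ B₂) 1 * C ^ ch.k)), by positivity, ?_⟩
  filter_upwards [a2, b2, h4, hf.eventually, h.eventually_node h0 hf,
    continuous_subtype_val.continuousAt.eventually hτ.eventually_analyticAt]
    with y a b d f1 f2 f3 r δ φ hd hφ
  have H := fun ζ hζ => d _ (hd.sub ζ hζ) (hd.mem ζ hζ)
  have k1 := fun ζ hζ => analyticAt_const.prod (hd.an ζ hζ) (f := fun _ => y.1)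
  have k2 : (∀ ζ ∈ ball (0 : ℂ) r, (e (y, δ ζ)).1 ≠ 0) ∨ ∀ ζ ∈ ball (0 : ℂ) r, (e (y, δ ζ)).2 ≠ 0 := by
    by_contra! k
    obtain ⟨⟨u, u1, u2⟩, w, w1, w2⟩ := k
    have k3 : τ y = 0 := (H u u1).2.2.2.2.2.1.symm.trans (by rw [u2, zero_mul])
    have k0 : NdAt _ _ _ _ _ τ := ⟨σ, rfl, f3, k3, f2⟩
    have k4 : ∀ ζ ∈ ball (0 : ℂ) r, (e (y, δ ζ)).1 = 0 → (e (y, δ ζ)).2 ≠ 0 := fun ζ hζ k k' =>
      hd.ord ζ hζ ((H ζ hζ).2.2.2.2.2.2 ▸ (spc_smul (H ζ hζ).2.2.1).2 (.inl (by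
        rw [show e (y, δ ζ) = 0 from Prod.ext k k']
        exact k0.isNode f1)))
    obtain ⟨_, ⟨ζ, k5, rfl⟩, k6, k7⟩ := ((convex_ball (0 : ℂ) r).isPreconnected.image
      (fun ζ => e (y, δ ζ)) fun ζ hζ => ((H ζ hζ).2.1.comp_of_eq (k1 ζ hζ) rfl).continuousAt.continuousWithinAt)
      {z | z.1 ≠ 0} {z | z.2 ≠ 0} (isOpen_ne_fun continuous_fst continuous_const)
      (isOpen_ne_fun continuous_snd continuous_const)
      (by rintro _ ⟨ζ, k, rfl⟩; exact or_iff_not_imp_left.2 fun k' => k4 ζ k (not_not.1 k'))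
      ⟨_, ⟨w, w1, rfl⟩, fun k => k4 w w1 k w2⟩ ⟨_, ⟨u, u1, rfl⟩, k4 u u1 u2⟩
    exact mul_ne_zero k6 k7 ((H ζ k5).2.2.2.2.2.1.trans k3)
  rcases k2 with k2 | k2
  · refine key (β := fun w => σ (y, (w, τ y / w))) (s := fun ζ => s (y, δ ζ))
      (h := fun ζ => (e (y, δ ζ)).1) (p := 0) hd hφ (fun ζ hζ => ?_) _ (le_max_left B₁ B₂)
    obtain ⟨d1, d2, d3, d4, d5, d6, d7⟩ := H ζ hζ
    have k3 : τ y / (e (y, δ ζ)).1 = (e (y, δ ζ)).2 := (div_eq_iff (k2 ζ hζ)).2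
      (d6.symm.trans (mul_comm _ _))
    have k4 := d5.trans_le (min_le_left _ _)
    exact ⟨d1.comp_of_eq (k1 ζ hζ) rfl, analyticAt_fst.comp (d2.comp_of_eq (k1 ζ hζ) rfl), d3, d4, by rw [k3]; exact d7,
      a _ ((norm_fst_le _).trans_lt k4) (k3 ▸ (norm_snd_le _).trans_lt k4) (k2 ζ hζ)⟩
  · refine key (β := fun w => σ (y, (τ y / w, w))) (s := fun ζ => s (y, δ ζ))
      (h := fun ζ => (e (y, δ ζ)).2) (p := 0) hd hφ (fun ζ hζ => ?_) _ (le_max_right B₁ B₂)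
    obtain ⟨d1, d2, d3, d4, d5, d6, d7⟩ := H ζ hζ
    have k3 : τ y / (e (y, δ ζ)).2 = (e (y, δ ζ)).1 := (div_eq_iff (k2 ζ hζ)).2 d6.symm
    have k4 := d5.trans_le (min_le_right _ _)
    exact ⟨d1.comp_of_eq (k1 ζ hζ) rfl, analyticAt_snd.comp (d2.comp_of_eq (k1 ζ hζ) rfl), d3, d4, by rw [k3]; exact d7,
      b _ ((norm_snd_le _).trans_lt k4) (k3 ▸ (norm_fst_le _).trans_lt k4) (k2 ζ hζ)⟩

end Ch

end Vale.Agent.P269
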